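import Vale.Agent.P078.Spectral

/-!
Spectral cuts of a positive element of a von Neumann algebra.
-/

namespace Vale.Agent.P078.Singular

open scoped InnerProductSpace

variable {H : Type} [NormedAddCommGroup H] [InnerProductSpace ℂ H] [CompleteSpace H]

theorem comm_starProjection (K : Submodule ℂ H) [K.HasOrthogonalProjection] (T : H →L[ℂ] H)
    (h1 : ∀ v ∈ K, T v ∈ K) (h2 : ∀ v ∈ K, star T v ∈ K) :
    K.starProjection * T = T * K.starProjection := by
  have key : ∀ S : H →L[ℂ] H, (∀ v ∈ K, S v ∈ K) →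
      K.starProjection * S * K.starProjection = S * K.starProjection := fun S hS => by
    ext v
    exact Submodule.starProjection_eq_self_iff.2 (hS _ (K.starProjection_apply_mem v))
  have e1 := key T h1
  have e2 := congrArg star (key (star T) h2)
  simp only [star_mul, star_star, (isStarProjection_starProjection (U := K)).isSelfAdjoint.star_eq,
    ← mul_assoc] at e2
  rw [← e2, e1]

theorem sub_proj {p s : H →L[ℂ] H} (hp : IsStarProjection p) (hs : IsStarProjection s)
    (h : s * p = s) : IsStarProjection (p - s) := by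
  have h' : p * s = s := by
    simpa [star_mul, hp.isSelfAdjoint.star_eq, hs.isSelfAdjoint.star_eq] using congrArg star h
  refine ⟨?_, hp.isSelfAdjoint.sub hs.isSelfAdjoint⟩
  show (p - s) * (p - s) = p - s
  simp [sub_mul, mul_sub, h, h', hp.isIdempotentElem.eq, hs.isIdempotentElem.eq]

theorem le_mul_comm {p s : H →L[ℂ] H} (hp : IsStarProjection p) (hs : IsStarProjection s)
    (h : s * p = s) : p * s = s := by
  simpa [star_mul, hp.isSelfAdjoint.star_eq, hs.isSelfAdjoint.star_eq] using congrArg star h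

theorem apply_self_of_proj {p : H →L[ℂ] H} (hp : IsStarProjection p) (v : H) : p (p v) = p v := by
  rw [← mul_apply_eq_comp, hp.isIdempotentElem.eq]

theorem norm_proj_apply_le {p : H →L[ℂ] H} (hp : IsStarProjection p) (v : H) : ‖p v‖ ≤ ‖v‖ := by
  simpa using p.le_of_opNorm_le hp.norm_le v

theorem inner_proj {p : H →L[ℂ] H} (hp : IsStarProjection p) (u v : H) :
    ⟪p u, v⟫_ℂ = ⟪u, p v⟫_ℂ := by
  rw [← ContinuousLinearMap.adjoint_inner_right, ← ContinuousLinearMap.star_eq_adjoint,
    hp.isSelfAdjoint.star_eq]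

omit [CompleteSpace H] in
theorem re_inner_nonneg {z : H →L[ℂ] H} (hz : 0 ≤ z) (v : H) : 0 ≤ (⟪v, z v⟫_ℂ).re :=
  ((ContinuousLinearMap.nonneg_iff_isPositive z).1 hz).re_inner_nonneg_right v

theorem conj_proj_nonneg {p z : H →L[ℂ] H} (hp : IsStarProjection p) (hz : 0 ≤ z) :
    0 ≤ p * z * p := by
  have := star_left_conjugate_nonneg hz p
  rwa [hp.isSelfAdjoint.star_eq] at this

/-- The data of a cut of `B` at height `t`. -/
theorem cut (M : VonNeumannAlgebra H) {B : H →L[ℂ] H} (hBM : B ∈ M) (hB : 0 ≤ B) {t : ℝ}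
    (ht : 0 < t) :
    ∃ P, P ∈ M ∧ IsStarProjection P ∧ B * P = P * B ∧
      (∀ v, ‖B ((1 - P) v)‖ ≤ t * ‖v‖) ∧ (∀ v, t * ‖P v‖ ≤ ‖B v‖) ∧
      (∀ p, IsStarProjection p → p * B = B → P * p = P) ∧
      (∀ R, ‖B‖ ≤ R → R ≤ 2 * t → 0 ≤ B - t • P ∧ ‖B - t • P‖ ≤ t) := by
  have hsa : IsSelfAdjoint B := .of_nonneg hB
  have hsp : ∀ x ∈ spectrum ℝ B, 0 ≤ x := fun x hx => spectrum_nonneg_of_nonneg hB hx
  set g := cfc (fun x : ℝ => max (x - t) 0) B with hg
  set m := cfc (fun x : ℝ => min x t) B with hm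
  set n := cfc (fun x : ℝ => max (t - x) 0) B with hn
  set P := spProj B t with hP
  have hPM : IsPr M P := isPr_spProj hBM t
  have hPg : P * g = g := spProj_mul B t
  have hgsa : IsSelfAdjoint g := cfc_predicate _ _
  have hgP : g * P = g := by
    simpa [star_mul, hPM.2.isSelfAdjoint.star_eq, hgsa.star_eq] using congrArg star hPg
  have hnP : n * P = 0 := by
    refine mul_spProj_eq_zero ?_
    rw [hn, ← cfc_mul _ _ B, show (0 : H →L[ℂ] H) = cfc (fun _ : ℝ => (0 : ℝ)) B from
      (cfc_const_zero ℝ B).symm]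
    refine cfc_congr fun x _ => ?_
    rcases le_total x t with h | h <;> simp [h]
  have hBmg : B = m + g := by
    rw [hm, hg, ← cfc_add B _ _]
    conv_lhs => rw [← cfc_id' ℝ B]
    refine cfc_congr fun x _ => ?_
    rcases le_total x t with h | h <;> simp [h]
  have hmn : m = t • 1 - n := by
    rw [hm, hn, ← Algebra.algebraMap_eq_smul_one, ← cfc_const t B, ← cfc_sub _ _ B]
    refine cfc_congr fun x _ => ?_
    rcases le_total x t with h | h <;> simp [h]
  have hmP : m * P = t • P := by rw [hmn, sub_mul, hnP, sub_zero, smul_mul_assoc, one_mul]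
  have hmsa : IsSelfAdjoint m := cfc_predicate _ _
  have hPm : P * m = t • P := by
    simpa [star_mul, star_smul, hPM.2.isSelfAdjoint.star_eq, hmsa.star_eq] using congrArg star hmP
  have hBP : B * P = t • P + g := by rw [hBmg, add_mul, hmP, hgP]
  have hPB : P * B = t • P + g := by rw [hBmg, mul_add, hPm, hPg]
  have hm0 : 0 ≤ m := cfc_nonneg fun x hx => le_min (hsp x hx) ht.le
  have hg0 : 0 ≤ g := cfc_nonneg fun x _ => le_max_right _ _
  have hmt : ‖m‖ ≤ t := norm_cfc_le ht.le fun x hx => by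
    rw [Real.norm_eq_abs, abs_of_nonneg (le_min (hsp x hx) ht.le)]
    exact min_le_right _ _
  refine ⟨P, hPM.1, hPM.2, hBP.trans hPB.symm, fun v => ?_, fun v => ?_, fun p hp hpB => ?_,
    fun R hR hRt => ?_⟩
  · have e : B * (1 - P) = m * (1 - P) := by
      rw [hBmg, add_mul, mul_sub g, hgP, mul_one, sub_self, add_zero]
    rw [← mul_apply_eq_comp, e, mul_apply_eq_comp]
    exact (m.le_of_opNorm_le hmt _).trans
      (mul_le_mul_of_nonneg_left (norm_proj_apply_le hPM.2.one_sub v) ht.le)
  · have h1 : t * ‖P v‖ ^ 2 ≤ ‖P v‖ * ‖B v‖ := by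
      calc t * ‖P v‖ ^ 2 ≤ t * ‖P v‖ ^ 2 + (⟪P v, g (P v)⟫_ℂ).re :=
            le_add_of_nonneg_right (re_inner_nonneg hg0 _)
        _ = (⟪P v, (B * P) (P v)⟫_ℂ).re := by
            rw [hBP, add_apply, smul_apply, apply_self_of_proj hPM.2, inner_add_right,
              Complex.add_re, RCLike.real_smul_eq_coe_smul (K := ℂ), inner_smul_right,
              inner_self_eq_norm_sq_to_K]
            norm_cast
        _ = (⟪P v, P (B v)⟫_ℂ).re := by
            rw [mul_apply_eq_comp, apply_self_of_proj hPM.2, ← mul_apply_eq_comp B,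
              hBP.trans hPB.symm, mul_apply_eq_comp]
        _ ≤ ‖P v‖ * ‖P (B v)‖ := (Complex.re_le_norm _).trans (norm_inner_le_norm _ _)
        _ ≤ ‖P v‖ * ‖B v‖ := by gcongr; exact norm_proj_apply_le hPM.2 _
    rcases (norm_nonneg (P v)).eq_or_lt with h | h
    · rw [← h, mul_zero]; exact norm_nonneg _
    · nlinarith
  · have hk : g = B * cfc (fun x : ℝ => max (x - t) 0 / max x t) B := by
      have hne : ∀ x : ℝ, max x t ≠ 0 := fun x => (lt_max_of_lt_right ht).ne'
      have hc : ContinuousOn (fun x : ℝ => max (x - t) 0 / max x t) (spectrum ℝ B) :=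
        ContinuousOn.div (by fun_prop) (by fun_prop) fun x _ => hne x
      conv_rhs => arg 1; rw [← cfc_id' ℝ B]
      rw [hg, ← cfc_mul (fun x : ℝ => x) _ B (by fun_prop) hc]
      refine cfc_congr fun x _ => ?_
      rcases le_total x t with h | h
      · simp [h]
      · rw [max_eq_left h, max_eq_left (sub_nonneg.2 h),
          mul_div_cancel₀ _ (ne_of_gt (lt_of_lt_of_le ht h))]
    have h0 : (p - 1) * g = 0 := by
      rw [hk, ← mul_assoc, sub_mul, one_mul, hpB, sub_self, zero_mul]
    have h1 : p * P = P := by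
      have := mul_spProj_eq_zero h0
      rwa [sub_mul, one_mul, sub_eq_zero] at this
    simpa [star_mul, hp.isSelfAdjoint.star_eq, hPM.2.isSelfAdjoint.star_eq] using congrArg star h1
  · have e : B - t • P = (1 - P) * m * (1 - P) + g := by
      have e1 : (1 - P) * m * (1 - P) = m - t • P := by
        rw [sub_mul, one_mul, hPm, mul_sub, mul_one, sub_mul, hmP, smul_mul_assoc,
          hPM.2.isIdempotentElem.eq, sub_self, sub_zero]
      rw [e1, hBmg]; abel
    have hnn : 0 ≤ B - t • P := e ▸ add_nonneg (conj_proj_nonneg hPM.2.one_sub hm0) hg0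
    refine ⟨hnn, ?_⟩
    have hgt : ‖g‖ ≤ t := norm_cfc_le ht.le fun x hx => by
      have hxR : x ≤ R := ((le_abs_self x).trans_eq (Real.norm_eq_abs x).symm).trans
        (((spectrum.norm_le_norm_mul_of_mem hx)).trans
          ((mul_le_of_le_one_right (norm_nonneg _) ContinuousLinearMap.norm_id_le).trans hR))
      rw [Real.norm_eq_abs, abs_of_nonneg (le_max_right _ _)]
      exact max_le (by linarith) ht.le
    have e' : B - t • P = (1 - P) * m * (1 - P) + P * g * P := by rw [e, hPg, hgP]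
    refine ContinuousLinearMap.opNorm_le_bound _ ht.le fun v => ?_
    refine le_of_sq_le_sq ?_ (by positivity)
    rw [e', add_apply]
    simp only [mul_apply_eq_comp]
    set u := m ((1 - P) v)
    set w := g (P v)
    have horth : ⟪(1 - P) u, P w⟫_ℂ = 0 := by
      rw [inner_proj hPM.2.one_sub, ← mul_apply_eq_comp, sub_mul, one_mul,
        hPM.2.isIdempotentElem.eq, sub_self]
      simp
    have horth' : ⟪(1 - P) v, P v⟫_ℂ = 0 := by
      rw [inner_proj hPM.2.one_sub, ← mul_apply_eq_comp, sub_mul, one_mul,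
        hPM.2.isIdempotentElem.eq, sub_self]
      simp
    have hv : v = (1 - P) v + P v := by simp
    rw [sq, norm_add_sq_eq_norm_sq_add_norm_sq_of_inner_eq_zero _ _ horth]
    conv_rhs => rw [hv, mul_pow, sq ‖(1 - P) v + P v‖,
      norm_add_sq_eq_norm_sq_add_norm_sq_of_inner_eq_zero _ _ horth']
    have a1 : ‖(1 - P) u‖ ≤ t * ‖(1 - P) v‖ :=
      (norm_proj_apply_le hPM.2.one_sub u).trans (m.le_of_opNorm_le hmt _)
    have a2 : ‖P w‖ ≤ t * ‖P v‖ := (norm_proj_apply_le hPM.2 w).trans (g.le_of_opNorm_le hgt _)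
    nlinarith [norm_nonneg ((1 - P) u), norm_nonneg (P w)]

end Vale.Agent.P078.Singular
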