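import Mathlib

/-!
Definitions for so-paving over a MASA without normal central functionals.
-/

namespace Vale.Agent.P078.Singular

variable {H : Type*} [NormedAddCommGroup H] [InnerProductSpace ℂ H] [CompleteSpace H]

/-- A positive linear functional on `M`, continuous on the unit ball of `M` for the strong
operator topology, which commutes with every projection of `A`. -/
def IsNormalCentral (M A : VonNeumannAlgebra H) (f : (H →L[ℂ] H) →ₗ[ℂ] ℂ) : Prop :=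
  (∀ y ∈ M, 0 ≤ (f (star y * y)).re ∧ (f (star y * y)).im = 0) ∧
    (∀ p ∈ A, IsStarProjection p → ∀ y ∈ M, f (p * y) = f (y * p)) ∧
    ∀ ε : ℝ, 0 < ε → ∃ (F : Finset H) (δ : ℝ), 0 < δ ∧
      ∀ y ∈ M, ‖y‖ ≤ 1 → (∀ ξ ∈ F, ‖y ξ‖ < δ) → ‖f y‖ < ε

/-- So-pavability with parameters `ε, r` of `x` inside the corner cut by the projection `p`. -/
def SoPavable (M A : VonNeumannAlgebra H) (p x : H →L[ℂ] H) (ε : ℝ) (r : ℕ) : Prop :=
  ∀ (F : Finset H) (δ : ℝ), 0 < δ → ∃ (P : Fin r → (H →L[ℂ] H)) (a q : H →L[ℂ] H),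
    (∀ i, P i ∈ A ∧ IsStarProjection (P i)) ∧ (∀ i j, i ≠ j → P i * P j = 0) ∧ ∑ i, P i = p ∧
    a ∈ A ∧ IsSelfAdjoint a ∧ a * p = a ∧ ‖a‖ ≤ ‖x‖ ∧
    q ∈ M ∧ IsStarProjection q ∧ q * p = q ∧ (∀ ξ ∈ F, ‖(p - q) ξ‖ < δ) ∧
    ‖q * ((∑ i, P i * x * P i) - a) * q‖ ≤ ε * ‖x‖

end Vale.Agent.P078.Singular
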