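import Vale.Agent.P078.Singular.Core

/-!
The decomposition of an arbitrary MASA, the diffuse case, and the lower bound.
-/

namespace Vale.Agent.P078.Singular

open Filter Topology
open scoped InnerProductSpace

variable {H : Type} [NormedAddCommGroup H] [InnerProductSpace ℂ H] [CompleteSpace H]
variable {M A : VonNeumannAlgebra H}

theorem eq_zero_of_small {z : ℂ} (h : ∀ ε : ℝ, 0 < ε → ‖z‖ ≤ ε) : z = 0 :=
  norm_le_zero_iff.1 (le_of_forall_gt_imp_ge_of_dense fun ε hε => h ε hε)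

/-- The largest projection of `A` killed by the normal central functionals. -/
theorem exists_null (hAM : ∀ y ∈ A, y ∈ M) :
    ∃ p₀, IsPr A p₀ ∧ (∀ f, IsNormalCentral M A f → f p₀ = 0) ∧
      ∀ e, IsPr A e → e * p₀ = 0 → e ≠ 0 → ∃ f, IsNormalCentral M A f ∧ f e ≠ 0 := by
  obtain ⟨S, Q, hS, hQ, -, hmax, hSQ, happ⟩ :=
    exhaust A 1 (.one _) fun s => ∀ f, IsNormalCentral M A f → f s = 0
  refine ⟨Q, hQ, fun f hf => eq_zero_of_small fun ε hε => ?_, fun e he heQ hne => ?_⟩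
  · obtain ⟨F, δ, hδ, hfF⟩ := hf.2.2 ε hε
    obtain ⟨T, hT, hTF⟩ := happ F δ hδ
    have h := hfF (Q - ∑ u ∈ T, u) (hAM _ (sub_mem hQ.1 (hS.sum_pr T hT).1.1))
      (sub_proj hQ.2 (hS.sum_pr T hT).1.2 (hSQ T hT)).norm_le hTF
    rw [map_sub, map_sum, Finset.sum_eq_zero fun u hu => (hS.1 u (hT u hu)).2.2.2 f hf,
      sub_zero] at h
    exact h.le
  · by_contra hno
    push Not at hno
    exact hmax e he hne (by rw [mul_sub, mul_one, heQ, sub_zero]) hno

theorem zero_mul_of_orth {p q : H →L[ℂ] H} (hp : IsStarProjection p) (hq : IsStarProjection q)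
    (h : p * q = 0) : q * p = 0 := by
  simpa [star_mul, hp.isSelfAdjoint.star_eq, hq.isSelfAdjoint.star_eq] using congrArg star h

theorem norm_orth_sum_le {p p' : H →L[ℂ] H} (hp : IsStarProjection p) (hp' : IsStarProjection p')
    (h : p * p' = 0) (u v : H →L[ℂ] H) (hu : p * u * p = u) (hv : p' * v * p' = v) {C : ℝ}
    (hC : 0 ≤ C) (huC : ‖u‖ ≤ C) (hvC : ‖v‖ ≤ C) : ‖u + v‖ ≤ C := by
  refine ContinuousLinearMap.opNorm_le_bound _ hC fun w => le_of_sq_le_sq ?_ (by positivity)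
  have h1 : ∀ a b : H, ⟪p a, p' b⟫_ℂ = 0 := fun a b => by
    rw [inner_proj hp, ← mul_apply_eq_comp, h]; simp
  have e : (u + v) w = p (u (p w)) + p' (v (p' w)) := by
    conv_lhs => rw [← hu, ← hv]
    rfl
  have hw : ‖p w‖ ^ 2 + ‖p' w‖ ^ 2 ≤ ‖w‖ ^ 2 := by
    have hs := sub_proj hp.one_sub hp' (by
      rw [mul_sub, mul_one, zero_mul_of_orth hp hp' h, sub_zero])
    have := wt_nonneg w hs
    have e1 : wt w (1 : H →L[ℂ] H) = ‖w‖ ^ 2 := by rw [wt_eq w (.one _), one_apply_eq_self]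
    rw [wt_sub, wt_sub, wt_eq w hp, wt_eq w hp', e1] at this
    linarith
  rw [e, sq, norm_add_sq_eq_norm_sq_add_norm_sq_of_inner_eq_zero _ _ (h1 _ _)]
  have a1 : ‖p (u (p w))‖ ≤ C * ‖p w‖ := (norm_proj_apply_le hp _).trans (u.le_of_opNorm_le huC _)
  have a2 : ‖p' (v (p' w))‖ ≤ C * ‖p' w‖ :=
    (norm_proj_apply_le hp' _).trans (v.le_of_opNorm_le hvC _)
  calc ‖p (u (p w))‖ * ‖p (u (p w))‖ + ‖p' (v (p' w))‖ * ‖p' (v (p' w))‖
      ≤ (C * ‖p w‖) * (C * ‖p w‖) + (C * ‖p' w‖) * (C * ‖p' w‖) := by gcongr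
    _ = C ^ 2 * (‖p w‖ ^ 2 + ‖p' w‖ ^ 2) := by ring
    _ ≤ C ^ 2 * ‖w‖ ^ 2 := mul_le_mul_of_nonneg_left hw (sq_nonneg _)
    _ = (C * ‖w‖) ^ 2 := by ring

/-- Pavings of two complementary corners give a paving. -/
theorem so_glue (hab : ∀ y ∈ A, ∀ z ∈ A, y * z = z * y) {p x : H →L[ℂ] H} (hp : IsPr A p)
    {ε : ℝ} {r s : ℕ} (hε : 0 ≤ ε) (h₀ : SoPavable M A p (p * x * p) ε r)
    (h₁ : SoPavable M A (1 - p) ((1 - p) * x * (1 - p)) ε s) : SoPavable M A 1 x ε (r + s) := by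
  intro F δ hδ
  obtain ⟨P, a, q, hP, hPo, hPs, haA, hasa, hap, haX, hqM, hq, hqp, hqF, hqn⟩ :=
    h₀ F (δ / 2) (half_pos hδ)
  obtain ⟨P', a', q', hP', hPo', hPs', ha'A, ha'sa, ha'p, ha'X, hq'M, hq', hq'p, hq'F, hq'n⟩ :=
    h₁ F (δ / 2) (half_pos hδ)
  set p' := 1 - p
  have hp' : IsPr A p' := ⟨sub_mem (one_mem _) hp.1, hp.2.one_sub⟩
  have hpp' : p * p' = 0 := hp.2.mul_one_sub_self
  have hp'p : p' * p = 0 := hp.2.one_sub_mul_self
  have hPle : ∀ i, P i * p = P i ∧ p * P i = P i := fun i => by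
    have h1 : P i * p = P i := by
      rw [← hPs, Finset.mul_sum, Finset.sum_eq_single i (fun j _ hj => hPo i j hj.symm) (by simp),
        (hP i).2.isIdempotentElem.eq]
    exact ⟨h1, le_mul_comm hp.2 (hP i).2 h1⟩
  have hPle' : ∀ i, P' i * p' = P' i ∧ p' * P' i = P' i := fun i => by
    have h1 : P' i * p' = P' i := by
      rw [← hPs', Finset.mul_sum, Finset.sum_eq_single i (fun j _ hj => hPo' i j hj.symm) (by simp),
        (hP' i).2.isIdempotentElem.eq]
    exact ⟨h1, le_mul_comm hp'.2 (hP' i).2 h1⟩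
  have hpa : p * a = a := by rw [hab _ hp.1 _ haA, hap]
  have hpa' : p' * a' = a' := by rw [hab _ hp'.1 _ ha'A, ha'p]
  have hqq : IsStarProjection (q + q') := by
    have e1 : q * q' = 0 := by
      rw [← hqp, ← le_mul_comm hp'.2 hq' hq'p, mul_assoc, ← mul_assoc p, hpp', zero_mul, mul_zero]
    refine ⟨?_, hq.isSelfAdjoint.add hq'.isSelfAdjoint⟩
    show (q + q') * (q + q') = q + q'
    simp only [add_mul, mul_add, e1, zero_mul_of_orth hq hq' e1, hq.isIdempotentElem.eq,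
      hq'.isIdempotentElem.eq, add_zero, zero_add]
  have hxn : ∀ e : H →L[ℂ] H, IsStarProjection e → ‖e * x * e‖ ≤ ‖x‖ := fun e he => by
    refine ((norm_mul_le _ _).trans (mul_le_of_le_one_right (norm_nonneg _) he.norm_le)).trans ?_
    exact (norm_mul_le _ _).trans (mul_le_of_le_one_left (norm_nonneg _) he.norm_le)
  refine ⟨Fin.append P P', a + a', q + q', ?_, ?_, ?_, add_mem haA ha'A, hasa.add ha'sa, mul_one _,
    ?_, add_mem hqM hq'M, hqq, mul_one _, fun ξ hξ => ?_, ?_⟩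
  · exact Fin.addCases (by simpa using hP) (by simpa using hP')
  · intro i j hij
    induction i using Fin.addCases with
    | left i =>
      induction j using Fin.addCases with
      | left j => simpa using hPo i j fun h => hij (by rw [h])
      | right j =>
        simp only [Fin.append_left, Fin.append_right]
        rw [← (hPle i).1, ← (hPle' j).2, mul_assoc, ← mul_assoc p, hpp', zero_mul, mul_zero]
    | right i =>
      induction j using Fin.addCases with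
      | left j =>
        simp only [Fin.append_left, Fin.append_right]
        rw [← (hPle' i).1, ← (hPle j).2, mul_assoc, ← mul_assoc p', hp'p, zero_mul, mul_zero]
      | right j => simpa using hPo' i j fun h => hij (by rw [h])
  · simp [Fin.sum_univ_add, hPs, hPs', p']
  · exact norm_orth_sum_le hp.2 hp'.2 hpp' a a' (by rw [hpa, hap]) (by rw [hpa', ha'p])
      (norm_nonneg _) (haX.trans (hxn _ hp.2)) (ha'X.trans (hxn _ hp'.2))
  · calc ‖(1 - (q + q')) ξ‖ = ‖(p - q) ξ + (p' - q') ξ‖ := by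
          congr 1; simp only [p', sub_apply, add_apply, one_apply_eq_self]; abel
      _ ≤ ‖(p - q) ξ‖ + ‖(p' - q') ξ‖ := norm_add_le _ _
      _ < δ := by linarith [hqF ξ hξ, hq'F ξ hξ]
  · set T := (∑ i, P i * (p * x * p) * P i) - a
    set T' := (∑ i, P' i * (p' * x * p') * P' i) - a'
    have hT : (∑ i, Fin.append P P' i * x * Fin.append P P' i) - (a + a') = T + T' := by
      have e : ∀ i, P i * (p * x * p) * P i = P i * x * P i := fun i => by
        calc P i * (p * x * p) * P i = (P i * p) * x * (p * P i) := by simp only [mul_assoc]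
          _ = _ := by rw [(hPle i).1, (hPle i).2]
      have e' : ∀ i, P' i * (p' * x * p') * P' i = P' i * x * P' i := fun i => by
        calc P' i * (p' * x * p') * P' i = (P' i * p') * x * (p' * P' i) := by simp only [mul_assoc]
          _ = _ := by rw [(hPle' i).1, (hPle' i).2]
      simp only [T, T', e, e', Fin.sum_univ_add, Fin.append_left, Fin.append_right]
      abel
    have hTp : p * T * p = T := by
      simp only [T, mul_sub, sub_mul, Finset.mul_sum, Finset.sum_mul, hpa, hap]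
      congr 1
      refine Finset.sum_congr rfl fun i _ => ?_
      calc p * (P i * (p * x * p) * P i) * p = (p * P i) * (p * x * p) * (P i * p) := by
            simp only [mul_assoc]
        _ = _ := by rw [(hPle i).1, (hPle i).2]
    have hTp' : p' * T' * p' = T' := by
      simp only [T', mul_sub, sub_mul, Finset.mul_sum, Finset.sum_mul, hpa', ha'p]
      congr 1
      refine Finset.sum_congr rfl fun i _ => ?_
      calc p' * (P' i * (p' * x * p') * P' i) * p' = (p' * P' i) * (p' * x * p') * (P' i * p') := by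
            simp only [mul_assoc]
        _ = _ := by rw [(hPle' i).1, (hPle' i).2]
    have hp'q : p' * q = 0 := by rw [← le_mul_comm hp.2 hq hqp, ← mul_assoc, hp'p, zero_mul]
    have hqp' : q * p' = 0 := by rw [← hqp, mul_assoc, hpp', mul_zero]
    have hpq' : p * q' = 0 := by rw [← le_mul_comm hp'.2 hq' hq'p, ← mul_assoc, hpp', zero_mul]
    have hq'p' : q' * p = 0 := by rw [← hq'p, mul_assoc, hp'p, mul_zero]
    have hcore : (q + q') * (T + T') * (q + q') = q * T * q + q' * T' * q' := by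
      have c1 : q * T' = 0 := by rw [← hTp', ← mul_assoc, ← mul_assoc, hqp', zero_mul, zero_mul]
      have c2 : q' * T = 0 := by rw [← hTp, ← mul_assoc, ← mul_assoc, hq'p', zero_mul, zero_mul]
      have c3 : T * q' = 0 := by rw [← hTp, mul_assoc, hpq', mul_zero]
      have c4 : T' * q = 0 := by rw [← hTp', mul_assoc, hp'q, mul_zero]
      simp only [add_mul, mul_add, c1, c2, mul_assoc q T q', mul_assoc q' T' q, c3, c4, mul_zero,
        add_zero, zero_add]
    rw [hT, hcore]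
    refine norm_orth_sum_le hp.2 hp'.2 hpp' _ _ ?_ ?_ (mul_nonneg hε (norm_nonneg _))
      (hqn.trans (mul_le_mul_of_nonneg_left (hxn _ hp.2) hε))
      (hq'n.trans (mul_le_mul_of_nonneg_left (hxn _ hp'.2) hε))
    · calc p * (q * T * q) * p = (p * q) * T * (q * p) := by simp only [mul_assoc]
        _ = _ := by rw [le_mul_comm hp.2 hq hqp, hqp]
    · calc p' * (q' * T' * q') * p' = (p' * q') * T' * (q' * p') := by simp only [mul_assoc]
        _ = _ := by rw [le_mul_comm hp'.2 hq' hq'p, hq'p]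

/-- Diffuse and finite rank projections dense: no normal central functional. -/
theorem central_eq_zero (hAM : ∀ y ∈ A, y ∈ M) (hab : ∀ y ∈ A, ∀ z ∈ A, y * z = z * y)
    (hd : Diffuse A) (hfin : ∀ (F : Finset H) (δ : ℝ), 0 < δ → ∃ q ∈ M, IsStarProjection q ∧
      FiniteDimensional ℂ q.range ∧ ∀ ξ ∈ F, ‖(1 - q) ξ‖ < δ)
    {f : (H →L[ℂ] H) →ₗ[ℂ] ℂ} (hf : IsNormalCentral M A f) : f 1 = 0 := by
  classical
  refine eq_zero_of_small fun ε hε => ?_
  obtain ⟨F, δ, hδ, hfF⟩ := hf.2.2 (ε / 2) (half_pos hε)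
  obtain ⟨q, hqM, hqP, hqfin, hqF⟩ := hfin F δ hδ
  obtain ⟨hHOP, hqK⟩ := isStarProjection_iff_eq_starProjection_range.1 hqP
  set bb := stdOrthonormalBasis ℂ q.range
  set m := Module.finrank ℂ q.range
  set b : Fin m → H := fun i => (bb i : H)
  have hb : ∀ i, ‖b i‖ = 1 := fun i => bb.orthonormal.norm_eq_one i
  have hq : ∀ v, q v = ∑ i, ⟪b i, v⟫_ℂ • b i := by
    intro v
    have := congrArg Subtype.val (bb.sum_repr (q.range.orthogonalProjectionOnto v))
    conv_lhs => rw [hqK, Submodule.starProjection_apply, ← this]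
    simp only [Submodule.coe_sum, Submodule.coe_smul]
    refine Finset.sum_congr rfl fun i _ => ?_
    rw [OrthonormalBasis.repr_apply_apply]
    congr 1
    exact (Submodule.inner_orthogonalProjectionOnto_eq_of_mem_left (bb i) v)
  obtain ⟨F', δ', hδ', hfF'⟩ := hf.2.2 1 one_pos
  -- boundedness on small elements
  have hsm : ∀ t : ℝ, 0 < t → ∃ T ∈ M, f q = f T ∧ ‖T‖ ≤ t := by
    intro t ht
    obtain ⟨K, e, he, hew, -⟩ := exists_compat hab hd (η := (t / ((m : ℝ) + 1)) ^ 2)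
      (by positivity) b ∅
    have hTM : pinch e q ∈ M :=
      sum_mem fun k _ => mul_mem (mul_mem (hAM _ (he.1 k).1) hqM) (hAM _ (he.1 k).1)
    refine ⟨pinch e q, hTM, ?_, ?_⟩
    · calc f q = f (∑ k, e k * q) := by rw [← Finset.sum_mul, he.2.2, one_mul]
        _ = ∑ k, f (e k * (e k * q)) := by
            rw [map_sum]
            refine Finset.sum_congr rfl fun k _ => ?_
            rw [← mul_assoc, (he.1 k).2.isIdempotentElem.eq]
        _ = ∑ k, f (e k * q * e k) := Finset.sum_congr rfl fun k _ =>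
            hf.2.1 _ (he.1 k).1 (he.1 k).2 _ (mul_mem (hAM _ (he.1 k).1) hqM)
        _ = f (pinch e q) := by rw [pinch, map_sum]
    · have hm : (0 : ℝ) < (m : ℝ) + 1 := by positivity
      refine ContinuousLinearMap.opNorm_le_bound _ ht.le fun v => le_of_sq_le_sq ?_ (by positivity)
      rw [pinch, sum_apply]
      simp only [mul_apply_eq_comp]
      rw [he.norm_sum_sq fun k => q (e k v), mul_pow, ← he.sum_norm_sq v, Finset.mul_sum]
      refine Finset.sum_le_sum fun k _ => ?_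
      rw [← mul_pow]
      refine pow_le_pow_left₀ (norm_nonneg _) ((norm_proj_apply_le (he.1 k).2 _).trans ?_) 2
      rw [hq]
      refine (norm_sum_le _ _).trans ?_
      have hi : ∀ i, ‖⟪b i, e k v⟫_ℂ • b i‖ ≤ t / ((m : ℝ) + 1) * ‖e k v‖ := fun i => by
        rw [norm_smul, hb, mul_one, ← apply_self_of_proj (he.1 k).2 v, ← inner_proj (he.1 k).2,
          apply_self_of_proj (he.1 k).2]
        refine (norm_inner_le_norm _ _).trans (mul_le_mul_of_nonneg_right ?_ (norm_nonneg _))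
        refine le_of_sq_le_sq ?_ (by positivity)
        rw [← wt_eq _ (he.1 k).2]
        exact (hew i k).le
      refine (Finset.sum_le_sum fun i _ => hi i).trans ?_
      rw [Finset.sum_const, Finset.card_univ, Fintype.card_fin, nsmul_eq_mul, ← mul_assoc]
      refine mul_le_mul_of_nonneg_right ?_ (norm_nonneg _)
      rw [mul_div_assoc', div_le_iff₀ hm]
      nlinarith
  have hfq : ‖f q‖ ≤ ε / 2 := by
    obtain ⟨G, d, hd0, hG⟩ := hf.2.2 (ε / 2) (half_pos hε)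
    set S := ∑ v ∈ G, ‖v‖
    obtain ⟨T, hTM, hTq, hT⟩ := hsm (min 1 (d / (S + 1))) (by positivity)
    rw [hTq]
    refine (hG T hTM (hT.trans (min_le_left _ _)) fun v hv => ?_).le
    have hv' : ‖v‖ ≤ S := Finset.single_le_sum (f := fun v => ‖v‖) (fun v _ => norm_nonneg _) hv
    calc ‖T v‖ ≤ d / (S + 1) * ‖v‖ := T.le_of_opNorm_le (hT.trans (min_le_right _ _)) v
      _ < d := by
          rw [div_mul_eq_mul_div, div_lt_iff₀ (by positivity)]
          nlinarith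
  have h := hfF (1 - q) (sub_mem (one_mem _) hqM) hqP.one_sub.norm_le hqF
  rw [map_sub] at h
  calc ‖f 1‖ = ‖(f 1 - f q) + f q‖ := by rw [sub_add_cancel]
    _ ≤ ‖f 1 - f q‖ + ‖f q‖ := norm_add_le _ _
    _ ≤ ε := by linarith

theorem abs_inner_sub_le {q Z : H →L[ℂ] H} (hq : IsStarProjection q) {v : H} (hv : ‖v‖ ≤ 1)
    {δ B : ℝ} (hδ : ‖(1 - q) v‖ ≤ δ) (hB : ‖q * Z * q‖ ≤ B) :
    ‖⟪v, Z v⟫_ℂ‖ ≤ B + 2 * ‖Z‖ * δ := by
  have e : ⟪v, Z v⟫_ℂ = ⟪v, (q * Z * q) v⟫_ℂ +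
      (⟪q v, Z ((1 - q) v)⟫_ℂ + ⟪(1 - q) v, Z v⟫_ℂ) := by
    rw [mul_apply_eq_comp, mul_apply_eq_comp, ← inner_proj hq, sub_apply, one_apply_eq_self,
      map_sub, inner_sub_right, inner_sub_left]
    ring
  have hB0 : 0 ≤ B := (norm_nonneg _).trans hB
  rw [e]
  refine (norm_add_le _ _).trans (add_le_add ?_ ((norm_add_le _ _).trans ?_))
  · refine (norm_inner_le_norm _ _).trans ?_
    calc ‖v‖ * ‖(q * Z * q) v‖ ≤ 1 * (B * 1) := by
          gcongr
          exact ((q * Z * q).le_of_opNorm_le hB v).trans (by gcongr)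
      _ = B := by ring
  · have hqv : ‖q v‖ ≤ 1 := (norm_proj_apply_le hq v).trans hv
    have h1 : ‖Z ((1 - q) v)‖ ≤ ‖Z‖ * δ := (Z.le_opNorm _).trans (by gcongr)
    have h2 : ‖Z v‖ ≤ ‖Z‖ * 1 := (Z.le_opNorm _).trans (by gcongr)
    calc ‖⟪q v, Z ((1 - q) v)⟫_ℂ‖ + ‖⟪(1 - q) v, Z v⟫_ℂ‖
        ≤ ‖q v‖ * ‖Z ((1 - q) v)‖ + ‖(1 - q) v‖ * ‖Z v‖ :=
          add_le_add (norm_inner_le_norm _ _) (norm_inner_le_norm _ _)
      _ ≤ 1 * (‖Z‖ * δ) + δ * (‖Z‖ * 1) := by
          have : 0 ≤ δ := (norm_nonneg _).trans hδ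
          gcongr
      _ = 2 * ‖Z‖ * δ := by ring

/-- A rank one projection cannot be paved with fewer than `1 / (2 ε)` pieces. -/
theorem not_pavable (hab : ∀ y ∈ A, ∀ z ∈ A, y * z = z * y) (hd : Diffuse A) [Nontrivial H]
    (hM : ∀ y : H →L[ℂ] H, y ∈ M) {ε : ℝ} {r : ℕ} (hεr : 2 * ε * r < 1) :
    ∃ x ∈ M, IsSelfAdjoint x ∧ ¬ SoPavable M A 1 x ε r := by
  classical
  obtain ⟨v₀, hv₀⟩ := exists_ne (0 : H)
  obtain ⟨u, hu⟩ : ∃ u : H, ‖u‖ = 1 := ⟨((‖v₀‖ : ℂ)⁻¹) • v₀, by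
    rw [norm_smul, norm_inv, Complex.norm_real, norm_norm, inv_mul_cancel₀ (norm_ne_zero_iff.2 hv₀)]⟩
  set x : H →L[ℂ] H := (ℂ ∙ u).starProjection
  have hx : IsStarProjection x := isStarProjection_starProjection
  have hxv : ∀ v, x v = ⟪u, v⟫_ℂ • u := fun v => Submodule.starProjection_unit_singleton ℂ hu v
  have hxn : ‖x‖ = 1 := le_antisymm hx.norm_le (by
    have := x.le_opNorm u
    rwa [hxv, inner_self_eq_norm_sq_to_K, hu, RCLike.ofReal_one, one_pow, one_smul, hu,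
      mul_one] at this)
  refine ⟨x, hM x, hx.isSelfAdjoint, fun hpave => ?_⟩
  rcases Nat.eq_zero_or_pos r with rfl | hr
  · obtain ⟨P, a, q, -, -, hPs, -⟩ := hpave ∅ 1 one_pos
    simp at hPs
  have hr' : (0 : ℝ) < r := by exact_mod_cast hr
  set gap := (r : ℝ)⁻¹ - 2 * ε with hgap
  have hgap0 : 0 < gap := by
    have : 2 * ε < (r : ℝ)⁻¹ := by
      rw [← one_div, lt_div_iff₀ hr']; linarith
    linarith
  obtain ⟨K, e, he, hew, -⟩ := exists_compat hab hd (η := gap / 4) (by positivity) ![u] ∅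
  set g : Fin K → H := fun k => e k u
  set f : Fin K → H := fun k => ((‖g k‖ : ℂ)⁻¹) • g k
  obtain ⟨P, a, q, hP, hPo, hPs, haA, -, -, haX, -, hq, -, hqF, hqn⟩ :=
    hpave (insert u (Finset.univ.image f)) (gap / 32) (by positivity)
  rw [hxn] at haX hqn
  rw [mul_one] at hqn
  have hPart : IsPart A P := ⟨hP, hPo, hPs⟩
  set Z := pinch P x - a with hZdef
  have hZn : ‖Z‖ ≤ 2 :=
    (norm_sub_le _ _).trans (by linarith [hPart.norm_pinch_le x])
  have hZb : ∀ v ∈ insert u (Finset.univ.image f), ‖v‖ ≤ 1 → ‖⟪v, Z v⟫_ℂ‖ ≤ ε + gap / 8 := by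
    intro v hv hv1
    refine (abs_inner_sub_le (Z := Z) hq hv1 (hqF v hv).le hqn).trans ?_
    have := mul_le_mul_of_nonneg_right hZn (show (0 : ℝ) ≤ 2 * (gap / 32) by positivity)
    linarith
  have hu1 := hZb u (Finset.mem_insert_self _ _) hu.le
  have hg1 : ∀ k, ‖⟪g k, Z (g k)⟫_ℂ‖ ≤ (ε + gap / 8) * ‖g k‖ ^ 2 := by
    intro k
    rcases eq_or_ne (g k) 0 with h | h
    · simp [h]
    have hf1 : ‖f k‖ = 1 := by
      simp only [f]
      rw [norm_smul, norm_inv, Complex.norm_real, norm_norm,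
        inv_mul_cancel₀ (norm_ne_zero_iff.2 h)]
    have hgf : g k = (‖g k‖ : ℂ) • f k := by
      simp only [f]
      rw [smul_smul, mul_inv_cancel₀ (Complex.ofReal_ne_zero.2 (norm_ne_zero_iff.2 h)), one_smul]
    have h2 := hZb (f k) (Finset.mem_insert_of_mem (Finset.mem_image_of_mem f (Finset.mem_univ k)))
      hf1.le
    conv_lhs => rw [hgf, map_smul, inner_smul_left, inner_smul_right]
    rw [norm_mul, norm_mul, RCLike.norm_conj, Complex.norm_real, norm_norm, mul_comm (ε + gap / 8),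
      sq, ← mul_assoc]
    gcongr
  have hS : ∀ v, (⟪v, pinch P x v⟫_ℂ).re = ∑ i, ‖⟪u, P i v⟫_ℂ‖ ^ 2 := by
    intro v
    rw [pinch, sum_apply, inner_sum, Complex.re_sum]
    refine Finset.sum_congr rfl fun i _ => ?_
    rw [mul_apply_eq_comp, mul_apply_eq_comp, ← inner_proj (hP i).2, hxv, inner_smul_right,
      ← inner_conj_symm (P i v) u, Complex.mul_conj']
    norm_cast
  have hsu : (r : ℝ)⁻¹ ≤ (⟪u, pinch P x u⟫_ℂ).re := by
    rw [hS]
    have h1 : ∑ i, wt u (P i) = 1 := by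
      simp only [wt_eq _ (hP _).2, hPart.sum_norm_sq, hu, one_pow]
    have h2 := sq_sum_le_card_mul_sum_sq (s := Finset.univ) (f := fun i => wt u (P i))
    rw [h1, Finset.card_univ, Fintype.card_fin, one_pow] at h2
    rw [← one_div, div_le_iff₀' hr']
    refine h2.trans (mul_le_mul_of_nonneg_left (Finset.sum_le_sum fun i _ => ?_) hr'.le)
    rw [← sq_abs (wt u (P i))]
    exact pow_le_pow_left₀ (abs_nonneg _) (Complex.abs_re_le_norm _) 2
  have hew' : ∀ k, ‖g k‖ ^ 2 ≤ gap / 4 := fun k => by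
    have := hew 0 k
    simp only [Matrix.cons_val_zero] at this
    rw [wt_eq u (he.1 k).2] at this
    exact this.le
  have hsg : ∀ k, (⟪g k, pinch P x (g k)⟫_ℂ).re ≤ gap / 4 * ‖g k‖ ^ 2 := by
    intro k
    rw [hS]
    calc ∑ i, ‖⟪u, P i (g k)⟫_ℂ‖ ^ 2 ≤ ∑ i, gap / 4 * ‖P i (g k)‖ ^ 2 := by
          refine Finset.sum_le_sum fun i _ => ?_
          have hpe : ⟪u, P i (g k)⟫_ℂ = ⟪g k, P i (g k)⟫_ℂ := by
            simp only [g]
            rw [inner_proj (he.1 k).2, ← mul_apply_eq_comp (e k) (P i),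
              hab _ (he.1 k).1 _ (hP i).1, mul_apply_eq_comp, apply_self_of_proj (he.1 k).2]
          rw [hpe]
          calc ‖⟪g k, P i (g k)⟫_ℂ‖ ^ 2 ≤ (‖g k‖ * ‖P i (g k)‖) ^ 2 :=
                pow_le_pow_left₀ (norm_nonneg _) (norm_inner_le_norm _ _) 2
            _ ≤ gap / 4 * ‖P i (g k)‖ ^ 2 := by
                rw [mul_pow]; exact mul_le_mul_of_nonneg_right (hew' k) (sq_nonneg _)
      _ = gap / 4 * ‖g k‖ ^ 2 := by rw [← Finset.mul_sum, hPart.sum_norm_sq]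
  have hga : ∑ k, (⟪g k, a (g k)⟫_ℂ).re = (⟪u, a u⟫_ℂ).re := by
    have : ∀ k, ⟪g k, a (g k)⟫_ℂ = ⟪e k u, a u⟫_ℂ := fun k => by
      simp only [g]
      rw [inner_proj (he.1 k).2, ← mul_apply_eq_comp (e k) a, hab _ (he.1 k).1 _ haA,
        mul_apply_eq_comp, apply_self_of_proj (he.1 k).2, ← mul_apply_eq_comp a (e k),
        hab _ haA _ (he.1 k).1, mul_apply_eq_comp, ← inner_proj (he.1 k).2]
    simp only [this, ← Complex.re_sum, ← sum_inner]
    rw [← sum_apply, he.2.2, one_apply_eq_self]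
  have hgn : ∑ k, ‖g k‖ ^ 2 = 1 := by rw [he.sum_norm_sq u, hu, one_pow]
  have hupper : ∀ v, (⟪v, Z v⟫_ℂ).re = (⟪v, pinch P x v⟫_ℂ).re - (⟪v, a v⟫_ℂ).re := fun v => by
    rw [hZdef, sub_apply, inner_sub_right, Complex.sub_re]
  have h1 : (⟪u, Z u⟫_ℂ).re ≤ ε + gap / 8 := (Complex.re_le_norm _).trans hu1
  have h2 : ∑ k, -((⟪g k, Z (g k)⟫_ℂ).re) ≤ ε + gap / 8 := by
    calc ∑ k, -((⟪g k, Z (g k)⟫_ℂ).re) ≤ ∑ k, (ε + gap / 8) * ‖g k‖ ^ 2 :=
          Finset.sum_le_sum fun k _ =>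
            ((neg_le_abs _).trans (Complex.abs_re_le_norm _)).trans (hg1 k)
      _ = ε + gap / 8 := by rw [← Finset.mul_sum, hgn, mul_one]
  have h3 : ∑ k, (⟪g k, pinch P x (g k)⟫_ℂ).re ≤ gap / 4 := by
    refine (Finset.sum_le_sum fun k _ => hsg k).trans ?_
    rw [← Finset.mul_sum, hgn, mul_one]
  simp only [hupper, neg_sub, Finset.sum_sub_distrib, hga] at h2
  rw [hupper] at h1
  linarith

/-- The statement handed in. -/
def Statement : Prop :=
  ∀ (H : Type) [NormedAddCommGroup H] [InnerProductSpace ℂ H] [CompleteSpace H]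
    (M A : VonNeumannAlgebra H),
    (∀ y ∈ A, y ∈ M) →
    (∀ y ∈ A, ∀ z ∈ A, y * z = z * y) →
    (∀ y ∈ M, (∀ z ∈ A, z * y = y * z) → y ∈ A) →
    (∀ p₀ ∈ A, IsStarProjection p₀ → (∀ f, IsNormalCentral M A f → f p₀ = 0) →
      ∀ x ∈ M, IsSelfAdjoint x → ∀ (ε : ℝ) (r : ℕ), 1 < ε * r →
        SoPavable M A p₀ (p₀ * x * p₀) ε r) ∧
    (∃ p₀ ∈ A, IsStarProjection p₀ ∧ (∀ f, IsNormalCentral M A f → f p₀ = 0) ∧
      (∀ e ∈ A, IsStarProjection e → e * p₀ = 0 → e ≠ 0 →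
        ∃ f, IsNormalCentral M A f ∧ f e ≠ 0) ∧
      ∀ x ∈ M, IsSelfAdjoint x → ∀ (ε : ℝ) (r s : ℕ), 1 < ε * r →
        SoPavable M A (1 - p₀) ((1 - p₀) * x * (1 - p₀)) ε s → SoPavable M A 1 x ε (r + s)) ∧
    ((∀ p ∈ A, IsStarProjection p → p ≠ 0 →
        ∃ e ∈ A, IsStarProjection e ∧ e * p = e ∧ e ≠ 0 ∧ e ≠ p) →
      (∀ (F : Finset H) (δ : ℝ), 0 < δ → ∃ q ∈ M, IsStarProjection q ∧
        FiniteDimensional ℂ q.range ∧ ∀ ξ ∈ F, ‖(1 - q) ξ‖ < δ) →
      (∀ f, IsNormalCentral M A f → f 1 = 0) ∧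
      (Nontrivial H → (∀ y : H →L[ℂ] H, y ∈ M) → ∀ (ε : ℝ) (r : ℕ), 2 * ε * r < 1 →
        ∃ x ∈ M, IsSelfAdjoint x ∧ ¬ SoPavable M A 1 x ε r))

/-- Proof of the statement. -/
theorem main : Statement := by
  intro H _ _ _ M A hAM hab hmax
  refine ⟨fun p₀ hp₀ hp₀P h0 x hx hxs ε r hεr =>
    so_paving₀ hAM hab hmax ⟨hp₀, hp₀P⟩ h0 hx hxs hεr, ?_, fun hd hfin => ?_⟩
  · obtain ⟨p₀, hp₀, h0, hsep⟩ := exists_null (M := M) hAM
    refine ⟨p₀, hp₀.1, hp₀.2, h0, fun e he heP h h' => hsep e ⟨he, heP⟩ h h',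
      fun x hx hxs ε r s hεr h₁ => ?_⟩
    have hε : 0 ≤ ε := by
      by_contra h
      push Not at h
      nlinarith [(Nat.cast_nonneg r : (0 : ℝ) ≤ r)]
    exact so_glue hab hp₀ hε (so_paving₀ hAM hab hmax hp₀ h0 hx hxs hεr) h₁
  · have hd' : Diffuse A := fun p hp hp0 => by
      obtain ⟨e, heA, heP, h1, h2, h3⟩ := hd p hp.1 hp.2 hp0
      exact ⟨e, ⟨heA, heP⟩, h1, h2, h3⟩
    exact ⟨fun f hf => central_eq_zero hAM hab hd' hfin hf,
      fun _ hM ε r hεr => not_pavable hab hd' hM hεr⟩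

end Vale.Agent.P078.Singular
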