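import Vale.Agent.P078.Singular.Exhaust
import Vale.Agent.P078.Singular.Defs

/-!
A central positive functional either kills projections arbitrarily close to a given corner or has
a nonzero normal central part in that corner.
-/

namespace Vale.Agent.P078.Singular

open Filter Topology
open scoped InnerProductSpace ComplexOrder

variable {H : Type} [NormedAddCommGroup H] [InnerProductSpace ℂ H] [CompleteSpace H]

/-- A bounded positive functional commuting with the projections of `A` and supported on `p₀`. -/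
structure Cent (M A : VonNeumannAlgebra H) (p₀ : H →L[ℂ] H)
    (φ : (H →L[ℂ] H) →ₗ[ℂ] ℂ) : Prop where
  pos : ∀ y ∈ M, 0 ≤ (φ (star y * y)).re ∧ (φ (star y * y)).im = 0
  bdd : ∃ C : ℝ, 0 ≤ C ∧ ∀ y, ‖φ y‖ ≤ C * ‖y‖
  cen : ∀ p ∈ A, IsStarProjection p → ∀ y ∈ M, φ (p * y) = φ (y * p)
  sup : φ (1 - p₀) = 0

variable {M A : VonNeumannAlgebra H} {p₀ : H →L[ℂ] H} {φ : (H →L[ℂ] H) →ₗ[ℂ] ℂ}

theorem Cent.proj_nonneg (hφ : Cent M A p₀ φ) {s : H →L[ℂ] H} (hs : IsPr M s) :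
    0 ≤ (φ s).re ∧ (φ s).im = 0 := by
  have := hφ.pos s hs.1
  rwa [hs.2.isSelfAdjoint.star_eq, hs.2.isIdempotentElem.eq] at this

theorem Cent.eq_zero (hφ : Cent M A p₀ φ) {s : H →L[ℂ] H} (hs : IsPr M s)
    (h : (φ s).re ≤ 0) : φ s = 0 :=
  Complex.ext (le_antisymm h (hφ.proj_nonneg hs).1) (hφ.proj_nonneg hs).2

/-- Halving: a functional dominated on projections below `p'` is dominated on positive elements. -/
theorem Cent.dominated (hφ : Cent M A p₀ φ) {p' : H →L[ℂ] H} (hp' : IsPr M p') {ξ : H} {c : ℝ}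
    (hle : ∀ s, IsPr M s → s * p' = s → (φ s).re ≤ c * wt ξ s) (hc : 0 ≤ c) :
    ∀ y ∈ M, (φ (star (y * p') * (y * p'))).re ≤ c * ‖(y * p') ξ‖ ^ 2 := by
  obtain ⟨C, hC0, hC⟩ := hφ.bdd
  have key : ∀ n : ℕ, ∀ z ∈ M, 0 ≤ z → p' * z = z → ∀ R : ℝ, 0 < R → ‖z‖ ≤ R →
      (φ z).re ≤ c * wt ξ z + C * R / 2 ^ n := by
    intro n
    induction n with
    | zero =>
      intro z _ hz0 _ R _ hR
      have h1 : (φ z).re ≤ C * R :=
        ((Complex.re_le_norm _).trans (hC z)).trans (mul_le_mul_of_nonneg_left hR hC0)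
      have h2 : 0 ≤ c * wt ξ z := mul_nonneg hc (re_inner_nonneg hz0 ξ)
      simp only [pow_zero, div_one]
      linarith
    | succ n ih =>
      intro z hzM hz0 hpz R hR hzR
      obtain ⟨P, hPM, hPP, -, -, -, hle', hsub⟩ := cut M hzM hz0 (half_pos hR)
      obtain ⟨hz'0, hz'R⟩ := hsub R hzR (by linarith)
      have hPp : P * p' = P := hle' p' hp'.2 hpz
      have hz'M : z - (R / 2) • P ∈ M := by
        rw [RCLike.real_smul_eq_coe_smul (K := ℂ)]
        exact sub_mem hzM (M.toStarSubalgebra.smul_mem hPM _)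
      have hpz' : p' * (z - (R / 2) • P) = z - (R / 2) • P := by
        rw [mul_sub, hpz, mul_smul_comm, le_mul_comm hp'.2 hPP hPp]
      have h1 := ih _ hz'M hz'0 hpz' (R / 2) (half_pos hR) hz'R
      have h2 := mul_le_mul_of_nonneg_left (hle P ⟨hPM, hPP⟩ hPp) (half_pos hR).le
      have e1 : (φ (z - (R / 2) • P)).re = (φ z).re - R / 2 * (φ P).re := by
        rw [map_sub, LinearMap.map_smul_of_tower, Complex.sub_re, Complex.real_smul,
          Complex.re_ofReal_mul]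
      have e2 : wt ξ (z - (R / 2) • P) = wt ξ z - R / 2 * wt ξ P := by
        rw [wt_sub, wt, wt, wt, smul_apply, RCLike.real_smul_eq_coe_smul (K := ℂ),
          inner_smul_right]
        simp
      rw [e1, e2] at h1
      have e3 : C * R / 2 ^ (n + 1) = C * (R / 2) / 2 ^ n := by rw [pow_succ]; ring
      rw [e3]
      linarith
  intro y hy
  set w := y * p'
  have hwM : w ∈ M := mul_mem hy hp'.1
  have hz0 : 0 ≤ star w * w := star_mul_self_nonneg _
  have hpz : p' * (star w * w) = star w * w := by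
    simp only [w, star_mul, hp'.2.isSelfAdjoint.star_eq, ← mul_assoc, hp'.2.isIdempotentElem.eq]
  have hwt : wt ξ (star w * w) = ‖w ξ‖ ^ 2 := by
    rw [wt, mul_apply_eq_comp, ContinuousLinearMap.star_eq_adjoint,
      ContinuousLinearMap.adjoint_inner_right, inner_self_eq_norm_sq_to_K]
    norm_cast
  refine le_of_forall_gt_imp_ge_of_dense fun b hb => ?_
  rw [← hwt] at hb
  obtain ⟨n, hn⟩ := pow_unbounded_of_one_lt (C * (‖star w * w‖ + 1) / (b - c * wt ξ (star w * w)))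
    (one_lt_two : (1 : ℝ) < 2)
  have h := key n _ (mul_mem (star_mem hwM) hwM) hz0 hpz (‖star w * w‖ + 1) (by positivity)
    (by linarith)
  have h2 : C * (‖star w * w‖ + 1) / 2 ^ n ≤ b - c * wt ξ (star w * w) := by
    rw [div_lt_iff₀ (by linarith)] at hn
    rw [div_le_iff₀ (by positivity)]
    linarith
  linarith

theorem isClosed_vna (M : VonNeumannAlgebra H) :
    IsClosed (M.toStarSubalgebra : Set (H →L[ℂ] H)) := by
  rw [VonNeumannAlgebra.coe_toStarSubalgebra, ← VonNeumannAlgebra.centralizer_centralizer M]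
  exact Set.isClosed_centralizer _

/-- In a GNS space, the cut of the cyclic vector by a subspace which is invariant under the
representation and its commuting contractions gives a functional with the same centre. -/
theorem gns_cut_comm {B : Type} [CStarAlgebra B] [PartialOrder B] [StarOrderedRing B]
    (g : B →ₚ[ℂ] ℂ) (K : Submodule ℂ g.GNS) [K.HasOrthogonalProjection]
    (hKπ : ∀ m, K.starProjection * g.gnsStarAlgHom m = g.gnsStarAlgHom m * K.starProjection)
    (hKU : ∀ U : g.GNS →L[ℂ] g.GNS,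
      (∀ m v, g.gnsStarAlgHom m (U v) = U (g.gnsStarAlgHom m v)) → (∀ v, ‖U v‖ ≤ ‖v‖) →
      ∀ v ∈ K, U v ∈ K)
    {p : B} (hps : star p = p) (hpp : p * p = p) (hpg : ∀ z, g (p * z) = g (z * p)) (y : B) :
    let ζ := K.starProjection (g.toPreGNS 1 : g.GNS)
    ⟪ζ, g.gnsStarAlgHom p (g.gnsStarAlgHom y ζ)⟫_ℂ =
      ⟪ζ, g.gnsStarAlgHom y (g.gnsStarAlgHom p ζ)⟫_ℂ := by
  intro ζ
  set π := g.gnsStarAlgHom
  let ι : B → g.GNS := fun a => (g.toPreGNS a : g.GNS)
  have hπ : ∀ y a : B, π y (ι a) = ι (y * a) := fun y a => by simp [π, ι]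
  set u : B := 2 • p - 1
  have hus : star u = u := by simp only [u, star_sub, star_nsmul, hps, star_one]
  have huu : u * u = 1 := by
    simp only [u, two_nsmul, sub_mul, mul_sub, add_mul, mul_add, one_mul, mul_one, hpp]
    abel
  have hgu : ∀ z, g (u * z) = g (z * u) := fun z => by
    simp only [u, sub_mul, mul_sub, one_mul, mul_one, smul_mul_assoc, mul_smul_comm, map_sub,
      map_nsmul, hpg]
  let R₀ : g.PreGNS →ₗ[ℂ] g.PreGNS :=
    { toFun := fun a => g.toPreGNS (g.ofPreGNS a * u)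
      map_add' := fun a b => by simp [add_mul]
      map_smul' := fun k a => by simp }
  have hR₀ : ∀ a : g.PreGNS, ‖R₀ a‖ ≤ 1 * ‖a‖ := fun a => by
    rw [one_mul]
    refine le_of_eq ?_
    rw [PositiveLinearMap.preGNS_norm_def, PositiveLinearMap.preGNS_norm_def]
    congr 2
    show g (star (g.ofPreGNS a * u) * (g.ofPreGNS a * u)) = g (star (g.ofPreGNS a) * g.ofPreGNS a)
    rw [star_mul, hus, mul_assoc u, hgu, mul_assoc, mul_assoc, huu, mul_one]
  let U : g.GNS →L[ℂ] g.GNS := (R₀.mkContinuous 1 hR₀).completion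
  have hU : ∀ a : B, U (ι a) = ι (a * u) := fun a => by simp [U, ι, R₀]
  have hUπ : ∀ (m : B) (v : g.GNS), π m (U v) = U (π m v) := by
    intro m v
    induction v using UniformSpace.Completion.induction_on with
    | hp => exact isClosed_eq ((π m).continuous.comp U.continuous) (U.continuous.comp (π m).continuous)
    | ih a =>
      show π m (U (ι (g.ofPreGNS a))) = U (π m (ι (g.ofPreGNS a)))
      rw [hU, hπ, hπ, hU, mul_assoc]
  have hUs : star U = U := by
    rw [ContinuousLinearMap.star_eq_adjoint]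
    refine ((ContinuousLinearMap.eq_adjoint_iff U U).2 fun a b => ?_).symm
    induction a, b using UniformSpace.Completion.induction_on₂ with
    | hp => exact isClosed_eq (by fun_prop) (by fun_prop)
    | ih a b =>
      show ⟪U (ι (g.ofPreGNS a)), ι (g.ofPreGNS b)⟫_ℂ = ⟪ι (g.ofPreGNS a), U (ι (g.ofPreGNS b))⟫_ℂ
      rw [hU, hU]
      simp only [ι, UniformSpace.Completion.inner_coe, PositiveLinearMap.preGNS_inner_def,
        PositiveLinearMap.ofPreGNS_toPreGNS]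
      rw [star_mul, hus, mul_assoc, hgu, mul_assoc]
  have hUnorm : ∀ v, ‖U v‖ ≤ ‖v‖ := fun v => by
    induction v using UniformSpace.Completion.induction_on with
    | hp => exact isClosed_le (continuous_norm.comp U.continuous) continuous_norm
    | ih a =>
      simpa [U, UniformSpace.Completion.norm_coe] using (hR₀ a)
  have hUK : K.starProjection * U = U * K.starProjection :=
    comm_starProjection K U (hKU U hUπ hUnorm) (by rw [hUs]; exact hKU U hUπ hUnorm)
  have hζu : π u ζ = U ζ := by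
    show π u (K.starProjection (ι 1)) = U (K.starProjection (ι 1))
    rw [← mul_apply_eq_comp (π u), ← hKπ, mul_apply_eq_comp, hπ, mul_one, ← mul_apply_eq_comp U,
      ← hUK, mul_apply_eq_comp, hU, one_mul]
  have key : ⟪ζ, π u (π y ζ)⟫_ℂ = ⟪ζ, π y (π u ζ)⟫_ℂ := by
    have e1 : star (π u) = π u := by rw [← map_star, hus]
    rw [← e1, ContinuousLinearMap.star_eq_adjoint, ContinuousLinearMap.adjoint_inner_right,
      ← ContinuousLinearMap.star_eq_adjoint, e1, hζu, hUπ]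
    conv_lhs => rw [← hUs, ContinuousLinearMap.star_eq_adjoint,
      ContinuousLinearMap.adjoint_inner_left]
  have hp2 : ∀ v, π u v = (2 : ℕ) • π p v - v := fun v => by
    rw [show u = p + p - 1 by simp [u, two_mul]]
    simp [two_nsmul]
  simp only [hp2, map_sub, map_nsmul, inner_sub_right, sub_left_inj] at key
  simpa [two_nsmul, inner_add_right, ← two_mul] using key

/-- The vectors dominated by finitely many vectors of `H` through `j`. -/
def dom {B : Type} [CStarAlgebra B] [PartialOrder B] [StarOrderedRing B] (g : B →ₚ[ℂ] ℂ)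
    (j : B → (H →L[ℂ] H)) : Submodule ℂ g.GNS where
  carrier := {η | ∃ (G : Finset H) (d : ℝ), 0 ≤ d ∧
    ∀ y : B, ‖g.gnsStarAlgHom y η‖ ≤ d * ∑ v ∈ G, ‖j y v‖}
  zero_mem' := ⟨∅, 0, le_rfl, by simp⟩
  add_mem' := fun {a b} ⟨G, d, hd, ha⟩ ⟨G', d', hd', hb⟩ => by
    classical
    refine ⟨G ∪ G', d + d', by positivity, fun y => ?_⟩
    rw [map_add]
    refine (norm_add_le _ _).trans ((add_le_add (ha y) (hb y)).trans ?_)
    rw [add_mul]
    refine add_le_add (mul_le_mul_of_nonneg_left ?_ hd) (mul_le_mul_of_nonneg_left ?_ hd')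
    · exact Finset.sum_le_sum_of_subset_of_nonneg Finset.subset_union_left
        fun v _ _ => norm_nonneg _
    · exact Finset.sum_le_sum_of_subset_of_nonneg Finset.subset_union_right
        fun v _ _ => norm_nonneg _
  smul_mem' := fun k a ⟨G, d, hd, ha⟩ => ⟨G, ‖k‖ * d, by positivity, fun y => by
    rw [map_smul, norm_smul, mul_assoc]
    exact mul_le_mul_of_nonneg_left (ha y) (norm_nonneg _)⟩

omit [CompleteSpace H] in
/-- The dominated part of the cyclic vector gives a normal functional with the same centre. -/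
theorem gns_normal {B : Type} [CStarAlgebra B] [PartialOrder B] [StarOrderedRing B]
    (g : B →ₚ[ℂ] ℂ) (j : B → (H →L[ℂ] H)) (hj : ∀ a b v, j (a * b) v = j a (j b v))
    (hjn : ∀ a, ‖a‖ ≤ ‖j a‖) :
    ∃ ζ : g.GNS,
      (∀ ε : ℝ, 0 < ε → ∃ (G : Finset H) (δ : ℝ), 0 < δ ∧ ∀ y : B, ‖j y‖ ≤ 1 →
        (∀ v ∈ G, ‖j y v‖ < δ) → ‖⟪ζ, g.gnsStarAlgHom y ζ⟫_ℂ‖ < ε) ∧
      (∀ p : B, star p = p → p * p = p → (∀ z, g (p * z) = g (z * p)) → ∀ y,
        ⟪ζ, g.gnsStarAlgHom (p * y) ζ⟫_ℂ = ⟪ζ, g.gnsStarAlgHom (y * p) ζ⟫_ℂ) ∧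
      (∀ e : B, g (star e * e) = 0 → g.gnsStarAlgHom e ζ = 0) ∧
      (∀ a : B, ∀ v : H, ∀ d : ℝ, 0 ≤ d →
        (∀ y, ‖((g.toPreGNS (y * a)) : g.GNS)‖ ≤ d * ‖j y v‖) → ζ = 0 → g (star a) = 0) := by
  classical
  set π := g.gnsStarAlgHom
  let ι : B → g.GNS := fun a => (g.toPreGNS a : g.GNS)
  have hπ : ∀ y a : B, π y (ι a) = ι (y * a) := fun y a => by simp [π, ι]
  set N := dom g j
  set K := N.topologicalClosure
  have hNπ : ∀ (m : B), ∀ η ∈ N, π m η ∈ N := by
    intro m η ⟨G, d, hd, hη⟩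
    refine ⟨G.image fun v => j m v, d * G.card, by positivity, fun y => ?_⟩
    rw [← mul_apply_eq_comp, ← map_mul]
    refine (hη _).trans ?_
    rw [mul_assoc]
    refine mul_le_mul_of_nonneg_left ?_ hd
    refine (Finset.sum_le_card_nsmul _ _ _ fun v hv => ?_).trans_eq (nsmul_eq_mul _ _)
    rw [hj]
    exact Finset.single_le_sum (f := fun w => ‖j y w‖) (fun w _ => norm_nonneg _)
      (Finset.mem_image_of_mem (fun v => j m v) hv)
  have hKπ : ∀ m : B, K.starProjection * π m = π m * K.starProjection := by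
    intro m
    refine comm_starProjection K (π m) (fun v hv => closure_invariant (hNπ m) hv) fun v hv => ?_
    rw [← map_star]
    exact closure_invariant (hNπ (star m)) hv
  set ζ := K.starProjection (ι 1) with hζ
  refine ⟨ζ, fun ε hε => ?_, fun p hps hpp hpg y => ?_, fun e he => ?_, fun a v d hd hdom hζ0 => ?_⟩
  · have hπnorm : ∀ (y : B) (v : g.GNS), ‖π y v‖ ≤ ‖j y‖ * ‖v‖ := fun y v =>
      (π y).le_of_opNorm_le ((NonUnitalStarAlgHom.norm_apply_le π y).trans (hjn y)) v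
    set e := ε / (2 * (‖ζ‖ + 1)) with he_def
    have he : 0 < e := by positivity
    obtain ⟨η, ⟨G, d, hd, hG⟩, hη⟩ : ∃ η ∈ N, dist ζ η < e := by
      have : ζ ∈ closure (N : Set g.GNS) := by
        rw [← Submodule.topologicalClosure_coe]
        exact K.starProjection_apply_mem (ι 1)
      exact Metric.mem_closure_iff.1 this _ he
    refine ⟨G, e / (d * G.card + 1), by positivity, fun y hy1 hyG => ?_⟩
    refine (norm_inner_le_norm _ _).trans_lt ?_
    have h1 : ‖π y ζ‖ ≤ e + e := by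
      conv_lhs => rw [← sub_add_cancel ζ η, map_add]
      refine (norm_add_le _ _).trans (add_le_add ?_ ?_)
      · refine ((hπnorm _ _).trans (mul_le_of_le_one_left (norm_nonneg _) hy1)).trans ?_
        rw [← dist_eq_norm]; exact hη.le
      · refine (hG _).trans ?_
        refine (mul_le_mul_of_nonneg_left
          (Finset.sum_le_card_nsmul _ _ _ fun v hv => (hyG v hv).le) hd).trans ?_
        rw [nsmul_eq_mul, ← mul_assoc, mul_div_assoc', div_le_iff₀ (by positivity)]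
        nlinarith
    calc ‖ζ‖ * ‖π y ζ‖ ≤ ‖ζ‖ * (ε / (‖ζ‖ + 1)) := by
          refine mul_le_mul_of_nonneg_left (h1.trans_eq ?_) (norm_nonneg _)
          rw [he_def]
          field_simp
          ring
      _ < ε := by
          rw [mul_div_assoc', div_lt_iff₀ (by positivity)]
          nlinarith
  · have hinv : ∀ U : g.GNS →L[ℂ] g.GNS, (∀ m v, π m (U v) = U (π m v)) → (∀ v, ‖U v‖ ≤ ‖v‖) →
        ∀ v ∈ K, U v ∈ K := fun U hU hUc v hv =>
      closure_invariant (fun η hη => by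
        obtain ⟨G, d, hd, h⟩ := hη
        exact ⟨G, d, hd, fun m => by rw [hU]; exact (hUc _).trans (h m)⟩) hv
    rw [map_mul, map_mul, mul_apply_eq_comp, mul_apply_eq_comp]
    exact gns_cut_comm g K hKπ hinv hps hpp hpg y
  · have h0 : ι e = 0 := by
      rw [← norm_eq_zero, UniformSpace.Completion.norm_coe, PositiveLinearMap.preGNS_norm_def]
      simp [he]
    rw [hζ, ← mul_apply_eq_comp, ← hKπ, mul_apply_eq_comp, hπ, mul_one, h0, map_zero]
  · have hmem : ι a ∈ N := ⟨{v}, d, hd, fun y => by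
      rw [hπ, Finset.sum_singleton]; exact hdom y⟩
    have h : ⟪ι a, ι 1⟫_ℂ = 0 := by
      rw [← Submodule.starProjection_eq_self_iff.2 (N.le_topologicalClosure hmem),
        inner_proj isStarProjection_starProjection]
      show ⟪ι a, ζ⟫_ℂ = 0
      rw [hζ0, inner_zero_right]
    simpa [ι, UniformSpace.Completion.inner_coe, PositiveLinearMap.preGNS_inner_def] using h

/-- A positive functional on an algebra represented on `H`, with a dominated vector. -/
theorem gns_transfer {B : Type} [CStarAlgebra B] [PartialOrder B] [StarOrderedRing B]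
    (j : B →⋆ₐ[ℂ] (H →L[ℂ] H)) (hjn : ∀ a, ‖a‖ ≤ ‖j a‖) (g : B →ₚ[ℂ] ℂ)
    (P : Set B) (hP : ∀ p ∈ P, star p = p ∧ p * p = p ∧ ∀ z, g (p * z) = g (z * p))
    (e : B) (he : g (star e * e) = 0) (a : B) (v : H) {d : ℝ} (hd : 0 ≤ d)
    (hdom : ∀ y, (g (star (y * a) * (y * a))).re ≤ (d * ‖j y v‖) ^ 2) (hga : g (star a) ≠ 0) :
    ∃ f : B →ₗ[ℂ] ℂ, (∀ y, 0 ≤ (f (star y * y)).re ∧ (f (star y * y)).im = 0) ∧
      (∀ p ∈ P, ∀ y, f (p * y) = f (y * p)) ∧
      (∀ ε : ℝ, 0 < ε → ∃ (G : Finset H) (δ : ℝ), 0 < δ ∧ ∀ y : B, ‖j y‖ ≤ 1 →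
        (∀ w ∈ G, ‖j y w‖ < δ) → ‖f y‖ < ε) ∧ f e = 0 ∧ f 1 ≠ 0 := by
  obtain ⟨ζ, hcont, hcen, hkill, hzero⟩ :=
    gns_normal g j (fun a b v => by rw [map_mul, mul_apply_eq_comp]) hjn
  refine ⟨{ toFun := fun y => ⟪ζ, g.gnsStarAlgHom y ζ⟫_ℂ
            map_add' := fun y z => by rw [map_add, add_apply, inner_add_right]
            map_smul' := fun k y => by rw [map_smul, smul_apply, inner_smul_right]; rfl },
    fun y => ?_, fun p hp y => hcen p (hP p hp).1 (hP p hp).2.1 (hP p hp).2.2 y, hcont, ?_, ?_⟩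
  · show 0 ≤ (⟪ζ, g.gnsStarAlgHom (star y * y) ζ⟫_ℂ).re ∧
      (⟪ζ, g.gnsStarAlgHom (star y * y) ζ⟫_ℂ).im = 0
    rw [map_mul, map_star, mul_apply_eq_comp, ContinuousLinearMap.star_eq_adjoint,
      ContinuousLinearMap.adjoint_inner_right, inner_self_eq_norm_sq_to_K]
    norm_cast
    exact ⟨sq_nonneg _, rfl⟩
  · show ⟪ζ, g.gnsStarAlgHom e ζ⟫_ℂ = 0
    rw [hkill e he, inner_zero_right]
  · show ⟪ζ, g.gnsStarAlgHom 1 ζ⟫_ℂ ≠ 0
    rw [map_one]
    refine fun h => hga (hzero a v d hd (fun y => ?_) (inner_self_eq_zero.1 h))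
    rw [UniformSpace.Completion.norm_coe, PositiveLinearMap.preGNS_norm_def]
    exact Real.sqrt_le_iff.2 ⟨by positivity, hdom y⟩

/-- The normal part: a central functional dominated below `p'` gives a normal central functional. -/
theorem Cent.normal_part (hφ : Cent M A p₀ φ) (hAM : ∀ y ∈ A, y ∈ M) (hp₀ : IsPr A p₀)
    {p' : H →L[ℂ] H} (hp' : IsPr M p') {ξ : H} {c : ℝ} (hc : 0 ≤ c)
    (hdom : ∀ y ∈ M, (φ (star (y * p') * (y * p'))).re ≤ c * ‖(y * p') ξ‖ ^ 2)
    (hne : φ p' ≠ 0) : ∃ f, IsNormalCentral M A f ∧ f p₀ ≠ 0 := by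
  set S := M.toStarSubalgebra with hSdef
  let iC : CStarAlgebra S := StarSubalgebra.cstarAlgebra S (h_closed := isClosed_vna M)
  let : PartialOrder S := CStarAlgebra.spectralOrder S
  have : StarOrderedRing S := CStarAlgebra.spectralOrderedRing S
  let φ' : S →ₗ[ℂ] ℂ := φ ∘ₗ S.toSubalgebra.toSubmodule.subtype
  let g : S →ₚ[ℂ] ℂ := PositiveLinearMap.mk₀ φ' fun a ha => by
    obtain ⟨b, rfl⟩ := CStarAlgebra.nonneg_iff_eq_star_mul_self.1 ha
    have := hφ.pos b.1 b.2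
    exact Complex.nonneg_iff.2 ⟨this.1, this.2.symm⟩
  have hge : φ (star (1 - p₀) * (1 - p₀)) = 0 := by
    rw [hp₀.2.one_sub.isSelfAdjoint.star_eq, hp₀.2.one_sub.isIdempotentElem.eq, hφ.sup]
  obtain ⟨f₀, h1, h2, h3, h4, h5⟩ := gns_transfer S.subtype (fun a => le_rfl) g
    {p : S | p.1 ∈ A ∧ IsStarProjection p.1}
    (fun p hp => ⟨Subtype.ext hp.2.isSelfAdjoint.star_eq, Subtype.ext hp.2.isIdempotentElem.eq,
      fun z => hφ.cen p.1 hp.1 hp.2 z.1 z.2⟩)
    ⟨1 - p₀, sub_mem (one_mem _) (hAM _ hp₀.1)⟩ hge ⟨p', hp'.1⟩ (p' ξ) (Real.sqrt_nonneg c)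
    (fun y => by
      rw [mul_pow, Real.sq_sqrt hc]
      exact hdom y.1 y.2)
    (fun h => hne (by
      have h' : φ (star p') = 0 := h
      rwa [hp'.2.isSelfAdjoint.star_eq] at h'))
  obtain ⟨f, hf⟩ := LinearMap.exists_extend (p := S.toSubalgebra.toSubmodule) f₀
  have hfy : ∀ y : S, f y.1 = f₀ y := fun y => LinearMap.congr_fun hf y
  refine ⟨f, ⟨fun y hy => ?_, fun p hpA hp y hy => ?_, fun ε hε => ?_⟩, ?_⟩
  · have h := h1 ⟨y, hy⟩
    rwa [← hfy] at h
  · exact (hfy (⟨p, hAM p hpA⟩ * ⟨y, hy⟩)).trans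
      ((h2 ⟨p, hAM p hpA⟩ ⟨hpA, hp⟩ ⟨y, hy⟩).trans (hfy (⟨y, hy⟩ * ⟨p, hAM p hpA⟩)).symm)
  · obtain ⟨G, δ, hδ, h⟩ := h3 ε hε
    exact ⟨G, δ, hδ, fun y hy h1 hG => (hfy ⟨y, hy⟩).symm ▸ h ⟨y, hy⟩ h1 hG⟩
  · rw [← hfy] at h4 h5
    change f (1 - p₀) = 0 at h4
    change f 1 ≠ 0 at h5
    rw [map_sub, sub_eq_zero] at h4
    exact h4 ▸ h5

/-- Killed projections fill `p₀`. -/
theorem Cent.exists_killed (hφ : Cent M A p₀ φ) (hAM : ∀ y ∈ A, y ∈ M) (hp₀ : IsPr A p₀)
    (h0 : ∀ f, IsNormalCentral M A f → f p₀ = 0) (F : Finset H) {δ : ℝ} (hδ : 0 < δ) :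
    ∃ q, IsPr M q ∧ q * p₀ = q ∧ φ q = 0 ∧ ∀ ξ ∈ F, ‖(p₀ - q) ξ‖ < δ := by
  have sub : ∀ p, IsPr M p → p * p₀ = p → p ≠ 0 → ∃ s, IsPr M s ∧ s ≠ 0 ∧ s * p = s ∧ φ s = 0 := by
    intro p hp _ hpne
    by_contra hno
    push Not at hno
    obtain ⟨v, hv⟩ : ∃ v, p v ≠ 0 := by
      by_contra h
      push Not at h
      exact hpne (ContinuousLinearMap.ext h)
    set ξ := p v
    set c := ((φ p).re + 1) / ‖ξ‖ ^ 2
    have hξ : 0 < ‖ξ‖ ^ 2 := by positivity
    have hc : 0 ≤ c := div_nonneg (by linarith [(hφ.proj_nonneg hp).1]) hξ.le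
    obtain ⟨T, Q, hT, hQ, hQp, hmax, hTQ, happ⟩ :=
      exhaust M p hp.2 fun s => c * wt ξ s ≤ (φ s).re
    have hQle : c * ‖Q ξ‖ ^ 2 ≤ (φ Q).re := by
      have hcont : Continuous fun u : H => c * ‖u‖ ^ 2 := by fun_prop
      refine le_of_forall_pos_le_add fun e he => ?_
      obtain ⟨d, hd, hdd⟩ := Metric.continuousAt_iff.1 (hcont.continuousAt (x := Q ξ)) e he
      obtain ⟨U, hU, hUξ⟩ := happ {ξ} d hd
      have hn := hUξ ξ (Finset.mem_singleton_self ξ)
      rw [sub_apply, norm_sub_rev, ← dist_eq_norm] at hn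
      have h1 := abs_lt.1 (Real.dist_eq _ _ ▸ hdd hn)
      have h2 : c * ‖(∑ u ∈ U, u) ξ‖ ^ 2 ≤ (φ (∑ u ∈ U, u)).re := by
        rw [hT.norm_sum_sq U hU, Finset.mul_sum, map_sum, Complex.re_sum]
        exact Finset.sum_le_sum fun u hu => by
          rw [← wt_eq ξ (hT.1 u (hU u hu)).1.2]; exact (hT.1 u (hU u hu)).2.2.2
      have h3 := (hφ.proj_nonneg ⟨sub_mem hQ.1 (hT.sum_pr U hU).1.1,
        sub_proj hQ.2 (hT.sum_pr U hU).1.2 (hTQ U hU)⟩).1
      rw [map_sub, Complex.sub_re] at h3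
      linarith
    set p' := p - Q
    have hp' : IsPr M p' := ⟨sub_mem hp.1 hQ.1, sub_proj hp.2 hQ.2 hQp⟩
    have hp'ne : p' ≠ 0 := by
      intro h
      rw [sub_eq_zero] at h
      rw [← h, apply_self_of_proj hp.2, div_mul_cancel₀ _ hξ.ne'] at hQle
      linarith
    have hp'p : p' * p = p' := by rw [sub_mul, hp.2.isIdempotentElem.eq, hQp]
    have hle : ∀ s, IsPr M s → s * p' = s → (φ s).re ≤ c * wt ξ s := by
      intro s hs hsp
      rcases eq_or_ne s 0 with rfl | hs0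
      · simp [wt]
      · exact (not_le.1 (hmax s hs hs0 hsp)).le
    obtain ⟨f, hf, hfne⟩ := hφ.normal_part hAM hp₀ hp' hc (hφ.dominated hp' hle hc)
      (hno p' hp' hp'ne hp'p)
    exact hfne (h0 f hf)
  obtain ⟨T, Q, hT, hQ, hQp, hmax, hTQ, happ⟩ := exhaust M p₀ hp₀.2 fun s => φ s = 0
  have hQeq : p₀ - Q = 0 := by
    by_contra hne
    obtain ⟨s, hs, hs0, hsp, hsk⟩ := sub _ ⟨sub_mem (hAM _ hp₀.1) hQ.1, sub_proj hp₀.2 hQ.2 hQp⟩
      (by rw [sub_mul, hp₀.2.isIdempotentElem.eq, hQp]) hne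
    exact hmax s hs hs0 hsp hsk
  obtain ⟨U, hU, hUF⟩ := happ F δ hδ
  refine ⟨_, (hT.sum_pr U hU).1, (hT.sum_pr U hU).2, ?_, fun ξ hξ => ?_⟩
  · rw [map_sum]
    exact Finset.sum_eq_zero fun u hu => (hT.1 u (hU u hu)).2.2.2
  · rw [sub_eq_zero.1 hQeq]
    exact hUF ξ hξ

end Vale.Agent.P078.Singular
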