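import Vale.Agent.P078.Singular.Refine
import Vale.Agent.P078.Singular.Normal

/-!
The three tools of the paving: the limit functional of pinchings, strong approximation of a weak
limit by convex combinations, and refinements chosen piece by piece.
-/

namespace Vale.Agent.P078.Singular

open Filter Topology
open scoped InnerProductSpace

variable {H : Type} [NormedAddCommGroup H] [InnerProductSpace ℂ H] [CompleteSpace H]
variable {M A : VonNeumannAlgebra H}

theorem inner_pinch_star {K : ℕ} {e : Fin K → (H →L[ℂ] H)} (he : IsPart A e) (y : H →L[ℂ] H)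
    (v : H) : ⟪v, pinch e (star y * y) v⟫_ℂ = ((∑ k, ‖y (e k v)‖ ^ 2 : ℝ) : ℂ) := by
  rw [pinch, sum_apply, inner_sum, Complex.ofReal_sum]
  refine Finset.sum_congr rfl fun k _ => ?_
  rw [mul_apply_eq_comp, mul_apply_eq_comp, mul_apply_eq_comp, ← inner_proj (he.1 k).2,
    ContinuousLinearMap.star_eq_adjoint, ContinuousLinearMap.adjoint_inner_right,
    inner_self_eq_norm_sq_to_K, Complex.ofReal_pow]
  rfl

/-- The limit of the pinchings in finitely many vector states below `p₀`. -/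
theorem exists_limit_functional (hab : ∀ y ∈ A, ∀ z ∈ A, y * z = z * y)
    {p₀ : H →L[ℂ] H} (hp₀ : IsPr A p₀) {m : ℕ} (b : Fin m → H) (hb : ∀ i, p₀ (b i) = b i) :
    ∃ φ : (H →L[ℂ] H) →ₗ[ℂ] ℂ, Cent M A p₀ φ ∧ ∀ y,
      Tendsto (fun s => ∑ i, ⟪b i, pinch (part hab s) y (b i)⟫_ℂ)
        (↑(refUlt H) : Filter (Finset (H →L[ℂ] H))) (𝓝 (φ y)) := by
  set L : (H →L[ℂ] H) → Finset (H →L[ℂ] H) → ℂ :=
    fun y s => ∑ i, ⟪b i, pinch (part hab s) y (b i)⟫_ℂ with hL
  have hbd : ∀ y s, ‖L y s‖ ≤ (∑ i, ‖b i‖ ^ 2) * ‖y‖ := fun y s => by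
    refine (norm_sum_le _ _).trans ?_
    rw [Finset.sum_mul]
    refine Finset.sum_le_sum fun i _ => (norm_inner_le_norm _ _).trans ?_
    calc ‖b i‖ * ‖pinch (part hab s) y (b i)‖ ≤ ‖b i‖ * (‖y‖ * ‖b i‖) := by
          gcongr
          exact (pinch (part hab s) y).le_of_opNorm_le ((isPart_part hab s).norm_pinch_le y) _
      _ = _ := by ring
  have hex : ∀ y, ∃ z : ℂ, ‖z‖ ≤ (∑ i, ‖b i‖ ^ 2) * ‖y‖ ∧
      Tendsto (L y) (↑(refUlt H) : Filter (Finset (H →L[ℂ] H))) (𝓝 z) := by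
    intro y
    obtain ⟨z, hz, hle⟩ := (isCompact_closedBall (0 : ℂ) ((∑ i, ‖b i‖ ^ 2) * ‖y‖)).ultrafilter_le_nhds
      ((refUlt H).map (L y)) (by
        simp only [Ultrafilter.coe_map, le_principal_iff, Filter.mem_map]
        exact Filter.univ_mem' fun s => mem_closedBall_zero_iff.2 (hbd y s))
    exact ⟨z, mem_closedBall_zero_iff.1 hz, hle⟩
  choose f hfb hft using hex
  let φ : (H →L[ℂ] H) →ₗ[ℂ] ℂ :=
    { toFun := f
      map_add' := fun y z => tendsto_nhds_unique (hft _) (((hft y).add (hft z)).congr fun s => by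
        simp [L, pinch, Finset.sum_add_distrib])
      map_smul' := fun k y => tendsto_nhds_unique (hft _) (((hft y).const_mul k).congr fun s => by
        simp [L, pinch, Finset.mul_sum]) }
  refine ⟨φ, ⟨fun y hy => ?_, ⟨_, Finset.sum_nonneg fun i _ => sq_nonneg _, hfb⟩,
    fun p hpA hp y hy => ?_, ?_⟩, hft⟩
  · have hval : ∀ s, L (star y * y) s =
        ((∑ i, ∑ k, ‖y (part hab s k (b i))‖ ^ 2 : ℝ) : ℂ) := fun s => by
      simp only [L, inner_pinch_star (isPart_part hab s), Complex.ofReal_sum]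
    refine ⟨ge_of_tendsto' ((Complex.continuous_re.tendsto _).comp (hft _)) fun s => ?_,
      tendsto_nhds_unique ((Complex.continuous_im.tendsto _).comp (hft _))
        (tendsto_const_nhds.congr fun s => ?_)⟩
    · simp only [Function.comp_apply, hval, Complex.ofReal_re]
      exact Finset.sum_nonneg fun i _ => Finset.sum_nonneg fun k _ => sq_nonneg _
    · simp only [Function.comp_apply, hval, Complex.ofReal_im]
  · refine tendsto_nhds_unique (hft _) ((hft _).congr' ?_)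
    filter_upwards [eventually_mem p] with s hs
    refine Finset.sum_congr rfl fun i _ => ?_
    congr 2
    refine Finset.sum_congr rfl fun k _ => ?_
    have hk : p * part hab s k = part hab s k * p := hab _ hpA _ ((isPart_part hab s).1 k).1
    rw [mul_assoc (part hab s k), mul_assoc y, hk, ← mul_assoc (part hab s k) p y]
    rcases compat_part hab hs ⟨hpA, hp⟩ k with h | h <;> simp [h, mul_assoc]
  · refine tendsto_nhds_unique (hft _) (tendsto_const_nhds.congr fun s => ?_)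
    symm
    refine Finset.sum_eq_zero fun i _ => ?_
    suffices h : pinch (part hab s) (1 - p₀) (b i) = 0 by rw [h, inner_zero_right]
    have hc : ∀ k, (1 - p₀) * part hab s k = part hab s k * (1 - p₀) := fun k =>
      hab _ (sub_mem (one_mem _) hp₀.1) _ ((isPart_part hab s).1 k).1
    have : pinch (part hab s) (1 - p₀) = 1 - p₀ := by
      simp only [pinch, mul_assoc, hc]
      simp only [← mul_assoc, ((isPart_part hab s).1 _).2.isIdempotentElem.eq, ← Finset.sum_mul,
        (isPart_part hab s).2.2, one_mul]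
    rw [this, sub_apply, one_apply_eq_self, hb, sub_self]

/-- A weak limit point is a norm limit of convex combinations. -/
theorem mem_closure_hull {E : Type*} [NormedAddCommGroup E] [InnerProductSpace ℂ E]
    [CompleteSpace E] {C : Set E} {u : E}
    (hu : ∀ z : E, ∀ ε : ℝ, 0 < ε → ∃ c ∈ C, |RCLike.re ⟪z, c⟫_ℂ - RCLike.re ⟪z, u⟫_ℂ| < ε)
    {ε : ℝ} (hε : 0 < ε) :
    ∃ (ι : Type) (_ : Fintype ι) (lam : ι → ℝ) (c : ι → E), (∀ i, 0 ≤ lam i) ∧ ∑ i, lam i = 1 ∧
      (∀ i, c i ∈ C) ∧ ‖∑ i, lam i • c i - u‖ < ε := by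
  let : InnerProductSpace ℝ E := InnerProductSpace.rclikeToReal ℂ E
  set K := closure (convexHull ℝ C)
  obtain ⟨c₀, hc₀, -⟩ := hu u 1 one_pos
  have hconv : Convex ℝ K := (convex_convexHull ℝ C).closure
  obtain ⟨v, hvK, hv⟩ := exists_norm_eq_iInf_of_complete_convex
    ⟨c₀, subset_closure (subset_convexHull ℝ C hc₀)⟩ isClosed_closure.isComplete hconv u
  have hle := (norm_eq_iInf_iff_real_inner_le_zero hconv hvK).1 hv
  have huv : u = v := by
    rw [← sub_eq_zero, ← norm_eq_zero]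
    by_contra hne
    have hpos : 0 < ‖u - v‖ ^ 2 := by positivity
    obtain ⟨c, hc, hcu⟩ := hu (u - v) _ hpos
    have h1 := hle c (subset_closure (subset_convexHull ℝ C hc))
    rw [show ⟪u - v, c - v⟫_ℝ = RCLike.re ⟪u - v, c - v⟫_ℂ from rfl] at h1
    have h2 : RCLike.re ⟪u - v, c - v⟫_ℂ = RCLike.re ⟪u - v, c⟫_ℂ - RCLike.re ⟪u - v, u⟫_ℂ +
        ‖u - v‖ ^ 2 := by
      rw [@norm_sq_eq_re_inner ℂ, ← map_sub, ← map_add, ← inner_sub_right, ← inner_add_right]
      congr 2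
      abel
    have := (abs_lt.1 hcu).1
    linarith
  obtain ⟨w, hw, hwu⟩ := Metric.mem_closure_iff.1 (huv ▸ hvK) ε hε
  obtain ⟨ι, hι, lam, c, h0, h1, h2, h3⟩ := mem_convexHull_iff_exists_fintype.1 hw
  refine ⟨ι, hι, lam, c, h0, h1, h2, ?_⟩
  rw [h3, ← dist_eq_norm, dist_comm]
  exact hwu

/-- Refining each piece of `e` by its own partition. -/
theorem exists_glue (hab : ∀ y ∈ A, ∀ z ∈ A, y * z = z * y) {K : ℕ}
    {e : Fin K → (H →L[ℂ] H)} (he : IsPart A e) {L : Fin K → ℕ}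
    (f : ∀ k, Fin (L k) → (H →L[ℂ] H)) (hf : ∀ k, IsPart A (f k)) :
    ∃ (N : ℕ) (g : Fin N → (H →L[ℂ] H)), IsPart A g ∧ (∀ n, ∃ k, e k * g n = g n) ∧
      ∀ x, pinch g x = ∑ k, e k * pinch (f k) x * e k := by
  classical
  let eq : Fin (Fintype.card (Σ k, Fin (L k))) ≃ Σ k, Fin (L k) :=
    (Fintype.equivFin _).symm
  let G : (Σ k, Fin (L k)) → (H →L[ℂ] H) := fun z => e z.1 * f z.1 z.2
  have hG : ∀ z, IsPr A (G z) := fun z => isPr_mul hab (he.1 _) ((hf _).1 _)
  have hcomm : ∀ z : (Σ k, Fin (L k)), f z.1 z.2 * e z.1 = e z.1 * f z.1 z.2 := fun z =>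
    hab _ ((hf _).1 _).1 _ (he.1 _).1
  have horth : ∀ z z', z ≠ z' → G z * G z' = 0 := by
    intro z z' hne
    rcases eq_or_ne z.1 z'.1 with h | h
    · obtain ⟨k, l⟩ := z
      obtain ⟨k', l'⟩ := z'
      subst h
      have hl : l ≠ l' := fun h => hne (h ▸ rfl)
      show e k * f k l * (e k * f k l') = 0
      rw [← mul_assoc, mul_assoc (e k) (f k l) (e k), hcomm ⟨k, l⟩, ← mul_assoc,
        (he.1 k).2.isIdempotentElem.eq, mul_assoc, (hf k).2.1 _ _ hl, mul_zero]
    · show e z.1 * f z.1 z.2 * (e z'.1 * f z'.1 z'.2) = 0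
      rw [← hcomm z, mul_assoc, ← mul_assoc (e z.1), he.2.1 _ _ h, zero_mul, mul_zero]
  refine ⟨_, fun n => G (eq n), ⟨fun n => hG _, fun n n' h => horth _ _ fun h' =>
    h (eq.injective h'), ?_⟩, fun n => ⟨(eq n).1, ?_⟩, fun x => ?_⟩
  · rw [eq.sum_comp G, Fintype.sum_sigma]
    simp only [G, ← Finset.mul_sum, (hf _).2.2, mul_one, he.2.2]
  · simp only [G, ← mul_assoc, (he.1 _).2.isIdempotentElem.eq]
  · rw [pinch, eq.sum_comp fun z => G z * x * G z, Fintype.sum_sigma]
    refine Finset.sum_congr rfl fun k _ => ?_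
    simp only [pinch, Finset.mul_sum, Finset.sum_mul]
    refine Finset.sum_congr rfl fun l _ => ?_
    simp only [G, mul_assoc, hcomm ⟨k, l⟩]

end Vale.Agent.P078.Singular
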