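import Vale.Agent.P078.Singular.Cut

/-!
Maximal orthogonal families of projections with a given property, and their suprema.
-/

namespace Vale.Agent.P078.Singular

open Filter Topology
open scoped InnerProductSpace

variable {H : Type} [NormedAddCommGroup H] [InnerProductSpace ℂ H] [CompleteSpace H]

/-- A pairwise orthogonal set of nonzero projections of `M` below `p` with the property `K`. -/
def Fam (M : VonNeumannAlgebra H) (p : H →L[ℂ] H) (K : (H →L[ℂ] H) → Prop)
    (S : Set (H →L[ℂ] H)) : Prop :=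
  (∀ u ∈ S, IsPr M u ∧ u * p = u ∧ u ≠ 0 ∧ K u) ∧ S.Pairwise fun u v => u * v = 0

variable {M : VonNeumannAlgebra H} {p : H →L[ℂ] H} {K : (H →L[ℂ] H) → Prop}
  {S : Set (H →L[ℂ] H)}

/-- Finite sums inside a family are projections below `p`. -/
theorem Fam.sum_pr (hS : Fam M p K S) (T : Finset (H →L[ℂ] H)) (hT : ∀ u ∈ T, u ∈ S) :
    IsPr M (∑ u ∈ T, u) ∧ (∑ u ∈ T, u) * p = ∑ u ∈ T, u := by
  refine ⟨⟨sum_mem fun u hu => (hS.1 u (hT u hu)).1.1, ?_, ?_⟩, ?_⟩
  · show (∑ u ∈ T, u) * (∑ u ∈ T, u) = ∑ u ∈ T, u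
    rw [Finset.sum_mul]
    refine Finset.sum_congr rfl fun u hu => ?_
    rw [Finset.mul_sum, Finset.sum_eq_single u (fun v hv h => hS.2 (hT u hu) (hT v hv) h.symm)
      (fun h => absurd hu h)]
    exact (hS.1 u (hT u hu)).1.2.isIdempotentElem.eq
  · show star (∑ u ∈ T, u) = _
    rw [star_sum]
    exact Finset.sum_congr rfl fun u hu => (hS.1 u (hT u hu)).1.2.isSelfAdjoint.star_eq
  · rw [Finset.sum_mul]
    exact Finset.sum_congr rfl fun u hu => (hS.1 u (hT u hu)).2.1

/-- Squared norms add in a family. -/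
theorem Fam.norm_sum_sq (hS : Fam M p K S) (T : Finset (H →L[ℂ] H)) (hT : ∀ u ∈ T, u ∈ S)
    (v : H) : ‖(∑ u ∈ T, u) v‖ ^ 2 = ∑ u ∈ T, ‖u v‖ ^ 2 := by
  have hP := (hS.sum_pr T hT).1.2
  rw [← wt_eq v hP]
  have : wt v (∑ u ∈ T, u) = ∑ u ∈ T, wt v u := by
    simp only [wt, sum_apply, inner_sum, Complex.re_sum]
  rw [this]
  exact Finset.sum_congr rfl fun u hu => wt_eq v (hS.1 u (hT u hu)).1.2

/-- A maximal family, its supremum, and approximation by finite sums. -/
theorem exhaust (M : VonNeumannAlgebra H) (p : H →L[ℂ] H) (hp : IsStarProjection p)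
    (K : (H →L[ℂ] H) → Prop) :
    ∃ (S : Set (H →L[ℂ] H)) (Q : H →L[ℂ] H), Fam M p K S ∧ IsPr M Q ∧ Q * p = Q ∧
      (∀ s, IsPr M s → s ≠ 0 → s * (p - Q) = s → ¬ K s) ∧
      (∀ T : Finset (H →L[ℂ] H), (∀ u ∈ T, u ∈ S) → (∑ u ∈ T, u) * Q = ∑ u ∈ T, u) ∧
      ∀ (F : Finset H) (δ : ℝ), 0 < δ → ∃ T : Finset (H →L[ℂ] H), (∀ u ∈ T, u ∈ S) ∧
        ∀ ξ ∈ F, ‖(Q - ∑ u ∈ T, u) ξ‖ < δ := by
  classical
  obtain ⟨S, hS⟩ := zorn_subset {S | Fam M p K S} fun c hc hchain => by
    refine ⟨⋃₀ c, ⟨fun u hu => ?_, ?_⟩, fun s hs => Set.subset_sUnion_of_mem hs⟩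
    · obtain ⟨s, hs, hus⟩ := hu
      exact (hc hs).1 u hus
    · intro u hu v hv huv
      obtain ⟨s, hs, hus⟩ := hu
      obtain ⟨t, ht, hvt⟩ := hv
      rcases hchain.total hs ht with h | h
      · exact (hc ht).2 (h hus) hvt huv
      · exact (hc hs).2 hus (h hvt) huv
  have hSF : Fam M p K S := hS.1
  let U : Finset S → Submodule ℂ H := fun T => (∑ u ∈ T.map (Function.Embedding.subtype _), u).range
  have hUP : ∀ T : Finset S, IsPr M (∑ u ∈ T.map (Function.Embedding.subtype _), u) ∧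
      (∑ u ∈ T.map (Function.Embedding.subtype _), u) * p =
        ∑ u ∈ T.map (Function.Embedding.subtype _), u := fun T => hSF.sum_pr _ fun u hu => by
    obtain ⟨v, -, rfl⟩ := Finset.mem_map.1 hu
    exact v.2
  have hU : ∀ T, ∃ _ : (U T).HasOrthogonalProjection,
      (∑ u ∈ T.map (Function.Embedding.subtype _), u) = (U T).starProjection := fun T =>
    isStarProjection_iff_eq_starProjection_range.1 (hUP T).1.2
  have : ∀ T, (U T).HasOrthogonalProjection := fun T => (hU T).fst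
  have hUm : Monotone U := by
    intro T T' hTT'
    rintro _ ⟨w, rfl⟩
    refine ⟨(∑ u ∈ T.map (Function.Embedding.subtype _), u) w, ?_⟩
    show (∑ u ∈ T'.map (Function.Embedding.subtype _), u)
      ((∑ u ∈ T.map (Function.Embedding.subtype _), u) w) = _
    rw [← mul_apply_eq_comp]
    congr 1
    rw [Finset.sum_mul]
    simp only [Finset.mul_sum, Finset.sum_map, Function.Embedding.subtype_apply]
    rw [Finset.sum_comm]
    refine Finset.sum_congr rfl fun v hv => ?_
    rw [Finset.sum_eq_single_of_mem v (hTT' hv) fun u _ hu =>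
      hSF.2 u.2 v.2 (fun e => hu (Subtype.ext e))]
    exact (hSF.1 v v.2).1.2.isIdempotentElem.eq
  have hUinv : ∀ y ∈ M.commutant, ∀ v ∈ ⨆ T, U T, y v ∈ ⨆ T, U T := by
    intro y hy v hv
    rw [Submodule.mem_iSup_of_directed _ hUm.directed_le] at hv ⊢
    obtain ⟨T, w, rfl⟩ := hv
    refine ⟨T, y w, ?_⟩
    show (∑ u ∈ T.map (Function.Embedding.subtype _), u) (y w) =
      y ((∑ u ∈ T.map (Function.Embedding.subtype _), u) w)
    rw [← mul_apply_eq_comp, commutant_commute hy (hUP T).1.1, mul_apply_eq_comp]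
  set Kc := (⨆ T, U T).topologicalClosure
  set Q := Kc.starProjection
  have hQ : IsPr M Q :=
    ⟨proj_mem M Kc fun y hy v hv => closure_invariant (hUinv y hy) hv,
      isStarProjection_starProjection⟩
  have hQp : Q * p = Q := by
    have h1 : p * Q = Q := by
      refine ContinuousLinearMap.ext fun v => ?_
      have : Kc ≤ p.toLinearMap.eqLocus LinearMap.id := by
        refine Submodule.topologicalClosure_minimal _ (iSup_le fun T => ?_)
          (isClosed_eq p.continuous continuous_id)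
        rintro _ ⟨x, rfl⟩
        show p ((∑ u ∈ T.map (Function.Embedding.subtype _), u) x) =
          (∑ u ∈ T.map (Function.Embedding.subtype _), u) x
        rw [← mul_apply_eq_comp, le_mul_comm hp (hUP T).1.2 (hUP T).2]
      exact this (Kc.starProjection_apply_mem v)
    simpa [star_mul, hp.isSelfAdjoint.star_eq, hQ.2.isSelfAdjoint.star_eq] using congrArg star h1
  have hQu : ∀ u ∈ S, Q * u = u := fun u hu => ContinuousLinearMap.ext fun v => by
    refine Submodule.starProjection_eq_self_iff.2 (Submodule.le_topologicalClosure _ ?_)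
    refine le_iSup U {⟨u, hu⟩} ⟨v, ?_⟩
    simp
  refine ⟨S, Q, hSF, hQ, hQp, fun s hs hs0 hsQ hK => ?_, fun T hT => ?_, fun F δ hδ => ?_⟩
  · have hsp : s * p = s := by
      rw [← hsQ, mul_assoc, sub_mul, hp.isIdempotentElem.eq, hQp]
    have hsu : ∀ u ∈ S, s * u = 0 := fun u hu => by
      rw [← hsQ, mul_assoc, sub_mul, hQu u hu, le_mul_comm hp (hSF.1 u hu).1.2 (hSF.1 u hu).2.1,
        sub_self, mul_zero]
    have hnew : Fam M p K (insert s S) := by
      refine ⟨fun u hu => ?_, ?_⟩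
      · rcases hu with rfl | hu
        · exact ⟨hs, hsp, hs0, hK⟩
        · exact hSF.1 u hu
      · refine Set.pairwise_insert.2 ⟨hSF.2, fun u hu _ => ⟨hsu u hu, ?_⟩⟩
        simpa [star_mul, hs.2.isSelfAdjoint.star_eq, (hSF.1 u hu).1.2.isSelfAdjoint.star_eq]
          using congrArg star (hsu u hu)
    have hmem : s ∈ S := hS.2 hnew (Set.subset_insert s S) (Set.mem_insert s S)
    exact hs0 (by rw [← hs.2.isIdempotentElem.eq]; exact hsu s hmem)
  · rw [Finset.sum_mul]
    refine Finset.sum_congr rfl fun u hu => ?_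
    simpa [star_mul, (hSF.1 u (hT u hu)).1.2.isSelfAdjoint.star_eq, hQ.2.isSelfAdjoint.star_eq]
      using congrArg star (hQu u (hT u hu))
  · have hev : ∀ᶠ T in (atTop : Filter (Finset S)), ∀ ξ ∈ F, ‖Q ξ - (U T).starProjection ξ‖ < δ := by
      refine (Finset.eventually_all F).2 fun ξ _ => ?_
      have h := Submodule.starProjection_tendsto_closure_iSup U hUm ξ
      filter_upwards [h (Metric.ball_mem_nhds _ hδ)] with T hT
      rw [← dist_eq_norm, dist_comm]
      exact Metric.mem_ball.1 hT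
    obtain ⟨T, hT⟩ := hev.exists
    refine ⟨T.map (Function.Embedding.subtype _), fun u hu => ?_, fun ξ hξ => ?_⟩
    · obtain ⟨v, -, rfl⟩ := Finset.mem_map.1 hu
      exact v.2
    · rw [sub_apply, (hU T).snd]
      exact hT ξ hξ

end Vale.Agent.P078.Singular
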