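import Vale.Agent.P078.Spectral
import Vale.Agent.P078.Colour

/-!
Partitions compatible with finitely many projections, weak limits of pinchings, and vector-valued
second moments.
-/

namespace Vale.Agent.P078.Singular

open Filter Topology
open scoped InnerProductSpace

variable {H : Type} [NormedAddCommGroup H] [InnerProductSpace ℂ H] [CompleteSpace H]
variable {A : VonNeumannAlgebra H}

/-- Each piece of `e` is below or orthogonal to `f`. -/
def Compat {K : ℕ} (e : Fin K → (H →L[ℂ] H)) (f : H →L[ℂ] H) : Prop :=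
  ∀ k, e k * f = e k ∨ e k * f = 0

/-- A partition compatible with finitely many projections. -/
theorem exists_compat₀ (hab : ∀ y ∈ A, ∀ z ∈ A, y * z = z * y) (s : Finset (H →L[ℂ] H)) :
    ∃ (K : ℕ) (e : Fin K → (H →L[ℂ] H)), IsPart A e ∧ ∀ f ∈ s, IsPr A f → Compat e f := by
  classical
  induction s using Finset.induction_on with
  | empty =>
      exact ⟨1, fun _ => 1, ⟨fun _ => ⟨one_mem _, .one _⟩,
        fun k l h => absurd (Subsingleton.elim k l) h, by simp⟩, by simp⟩
  | @insert f s hfs ih =>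
      obtain ⟨K, e, he, hes⟩ := ih
      by_cases hf : IsPr A f
      · have hg : IsPart A ![f, 1 - f] := by
          refine ⟨?_, ?_, by simp⟩
          · intro k; fin_cases k
            · exact hf
            · exact ⟨sub_mem (one_mem _) hf.1, hf.2.one_sub⟩
          · intro k l h; fin_cases k <;> fin_cases l <;>
              first | exact absurd rfl h | simp [hf.2.mul_one_sub_self, hf.2.one_sub_mul_self]
        refine ⟨_, _, he.prod hab hg, fun f' hf' hpr k => ?_⟩
        set a := finProdFinEquiv.symm k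
        rcases Finset.mem_insert.1 hf' with rfl | hmem
        · rw [mul_assoc]
          generalize a.2 = j
          fin_cases j
          · left; simp [hf.2.isIdempotentElem.eq]
          · right; simp [hf.2.one_sub_mul_self]
        · rw [mul_assoc, hab _ (hg.1 _).1 f' hpr.1, ← mul_assoc]
          rcases hes f' hmem hpr a.1 with h | h
          · left; rw [h]
          · right; rw [h, zero_mul]
      · refine ⟨K, e, he, fun f' hf' hpr => ?_⟩
        rcases Finset.mem_insert.1 hf' with rfl | hmem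
        · exact absurd hpr hf
        · exact hes f' hmem hpr

/-- The directed system of partitions, one for each finite set of projections. -/
noncomputable def partK (hab : ∀ y ∈ A, ∀ z ∈ A, y * z = z * y) (s : Finset (H →L[ℂ] H)) : ℕ :=
  (exists_compat₀ hab s).choose

/-- The partition attached to a finite set of projections. -/
noncomputable def part (hab : ∀ y ∈ A, ∀ z ∈ A, y * z = z * y) (s : Finset (H →L[ℂ] H)) :
    Fin (partK hab s) → (H →L[ℂ] H) :=
  (exists_compat₀ hab s).choose_spec.choose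

theorem isPart_part (hab : ∀ y ∈ A, ∀ z ∈ A, y * z = z * y) (s : Finset (H →L[ℂ] H)) :
    IsPart A (part hab s) :=
  (exists_compat₀ hab s).choose_spec.choose_spec.1

theorem compat_part (hab : ∀ y ∈ A, ∀ z ∈ A, y * z = z * y) {s : Finset (H →L[ℂ] H)}
    {f : H →L[ℂ] H} (hf : f ∈ s) (hpr : IsPr A f) : Compat (part hab s) f :=
  (exists_compat₀ hab s).choose_spec.choose_spec.2 f hf hpr

/-- A fixed ultrafilter finer than refinement. -/
noncomputable def refUlt (H : Type) [NormedAddCommGroup H] [InnerProductSpace ℂ H] :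
    Ultrafilter (Finset (H →L[ℂ] H)) :=
  Ultrafilter.of atTop

omit [CompleteSpace H] in
theorem eventually_mem (f : H →L[ℂ] H) : ∀ᶠ s in (↑(refUlt H) : Filter (Finset (H →L[ℂ] H))), f ∈ s := by
  filter_upwards [Ultrafilter.of_le atTop (eventually_ge_atTop {f})] with s hs
  exact hs (Finset.mem_singleton_self f)

omit [CompleteSpace H] in
theorem eventually_subset (t : Finset (H →L[ℂ] H)) : ∀ᶠ s in (↑(refUlt H) : Filter (Finset (H →L[ℂ] H))), t ⊆ s :=
  Ultrafilter.of_le atTop (eventually_ge_atTop t)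

/-- The weak limit of the pinchings lies in the MASA. -/
theorem exists_expect {M : VonNeumannAlgebra H} (hAM : ∀ y ∈ A, y ∈ M)
    (hab : ∀ y ∈ A, ∀ z ∈ A, y * z = z * y)
    (hmax : ∀ y ∈ M, (∀ z ∈ A, z * y = y * z) → y ∈ A) {x p : H →L[ℂ] H} (hxM : x ∈ M)
    (hx : IsSelfAdjoint x) (hp : IsPr A p) (hxp : x * p = x) :
    ∃ a, a ∈ A ∧ IsSelfAdjoint a ∧ a * p = a ∧ ‖a‖ ≤ ‖x‖ ∧ ∀ v w,
      Tendsto (fun s => ⟪pinch (part hab s) x v, w⟫_ℂ) (↑(refUlt H) : Filter (Finset (H →L[ℂ] H))) (𝓝 ⟪a v, w⟫_ℂ) := by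
  obtain ⟨a, hanorm, halim⟩ := exists_weak_limit (fun s => pinch (part hab s) x)
    (fun s => (isPart_part hab s).norm_pinch_le x) (norm_nonneg x) (refUlt H)
  have hcomm : ∀ y : H →L[ℂ] H,
      (∀ᶠ s in (↑(refUlt H) : Filter (Finset (H →L[ℂ] H))), y * pinch (part hab s) x = pinch (part hab s) x * y) →
        y * a = a * y := by
    intro y hy
    refine ContinuousLinearMap.ext fun v => ext_inner_right ℂ fun w => ?_
    rw [mul_apply_eq_comp, mul_apply_eq_comp, ← ContinuousLinearMap.adjoint_inner_right]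
    refine tendsto_nhds_unique (halim v _) ((halim (y v) w).congr' ?_)
    filter_upwards [hy] with z hz
    rw [ContinuousLinearMap.adjoint_inner_right, ← mul_apply_eq_comp, ← hz, mul_apply_eq_comp]
  have hproj : ∀ f, IsPr A f → f * a = a * f := fun f hf => hcomm f (by
    filter_upwards [eventually_mem f] with s hs
    exact pinch_commute hab (isPart_part hab s) x hf (compat_part hab hs hf))
  have haM : a ∈ M := mem_of_forall_commute M fun y hy => hcomm y (Eventually.of_forall fun s =>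
    (commutant_commute hy (sum_mem (t := Finset.univ) fun k _ =>
      mul_mem (mul_mem (hAM _ ((isPart_part hab s).1 k).1) hxM)
        (hAM _ ((isPart_part hab s).1 k).1))).symm)
  have haA : a ∈ A := hmax a haM fun z hz => commute_of_proj hab hproj hz
  refine ⟨a, haA, ?_, ?_, hanorm, halim⟩
  · refine ContinuousLinearMap.isSelfAdjoint_iff_isSymmetric.2 fun v w => ?_
    show ⟪a v, w⟫_ℂ = ⟪v, a w⟫_ℂ
    rw [← inner_conj_symm v (a w)]
    refine tendsto_nhds_unique (halim v w)
      ((Complex.continuous_conj.tendsto _).comp (halim w v) |>.congr fun z => ?_)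
    show starRingEnd ℂ ⟪pinch (part hab z) x w, v⟫_ℂ = _
    rw [inner_conj_symm, ← ContinuousLinearMap.adjoint_inner_left,
      ← ContinuousLinearMap.star_eq_adjoint, (pinch_selfAdjoint (isPart_part hab z) hx).star_eq]
  · refine ContinuousLinearMap.ext fun v => ext_inner_right ℂ fun w => ?_
    rw [mul_apply_eq_comp]
    refine tendsto_nhds_unique (halim (p v) w) ((halim v w).congr fun s => ?_)
    congr 1
    conv_lhs => rw [show pinch (part hab s) x = pinch (part hab s) x * p by
      simp only [pinch, Finset.sum_mul]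
      refine Finset.sum_congr rfl fun k _ => ?_
      rw [mul_assoc (part hab s k * x), hab _ ((isPart_part hab s).1 k).1 _ hp.1,
        ← mul_assoc, mul_assoc (part hab s k) x p, hxp]]
    rfl

section vectors

variable {E : Type*} [NormedAddCommGroup E] [InnerProductSpace ℂ E] {K r : ℕ}

omit [CompleteSpace H] in
/-- Second moment of a vector-valued linear form in the centred indicators. -/
theorem sum_sq_dev_vec (hr : 0 < r) (c : Fin K → Fin K → E) :
    ∑ σ : Fin K → Fin r, ‖∑ k, ∑ l, (dev σ k l : ℂ) • c k l‖ ^ 2 ≤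
      2 * (Fintype.card (Fin K → Fin r) : ℝ) * ∑ k, ∑ l, ‖c k l‖ ^ 2 := by
  classical
  set C : Fin K × Fin K → E := fun p => c p.1 p.2
  set N : ℝ := (Fintype.card (Fin K → Fin r) : ℝ)
  have hexp : ∀ σ : Fin K → Fin r, ‖∑ k, ∑ l, (dev σ k l : ℂ) • c k l‖ ^ 2 =
      ∑ p, ∑ q, (⟪C p, C q⟫_ℂ).re * (dev σ p.1 p.2 * dev σ q.1 q.2) := by
    intro σ
    rw [show (∑ k, ∑ l, (dev σ k l : ℂ) • c k l) = ∑ p, (dev σ p.1 p.2 : ℂ) • C p from
      (Fintype.sum_prod_type (fun p : Fin K × Fin K => (dev σ p.1 p.2 : ℂ) • c p.1 p.2)).symm,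
      @norm_sq_eq_re_inner ℂ, sum_inner, RCLike.re_to_complex, Complex.re_sum]
    refine Finset.sum_congr rfl fun p _ => ?_
    rw [inner_sum, Complex.re_sum]
    refine Finset.sum_congr rfl fun q _ => ?_
    rw [inner_smul_left, inner_smul_right, Complex.conj_ofReal, Complex.re_ofReal_mul,
      Complex.re_ofReal_mul]
    ring
  simp only [hexp]
  rw [Finset.sum_comm]
  simp only [Finset.sum_comm (γ := Fin K → Fin r), ← Finset.mul_sum]
  have hle : ∀ p q, (⟪C p, C q⟫_ℂ).re *
      (∑ σ : Fin K → Fin r, dev σ p.1 p.2 * dev σ q.1 q.2) ≤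
      (if q = p then N * (‖C p‖ * ‖C q‖) else 0) +
        (if q = p.swap then N * (‖C p‖ * ‖C q‖) else 0) := by
    intro p q
    have h1 : |(⟪C p, C q⟫_ℂ).re| ≤ ‖C p‖ * ‖C q‖ :=
      (Complex.abs_re_le_norm _).trans (norm_inner_le_norm _ _)
    have h2 := sum_dev_mul_le hr p q
    refine (le_abs_self _).trans ?_
    rw [abs_mul]
    refine (mul_le_mul h1 h2 (abs_nonneg _) (by positivity)).trans ?_
    have : 0 ≤ N * (‖C p‖ * ‖C q‖) := by positivity
    by_cases ha : q = p <;> by_cases hb : q = p.swap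
    · rw [if_pos (Or.inl ha), if_pos ha, if_pos hb]; linarith
    · rw [if_pos (Or.inl ha), if_pos ha, if_neg hb]; linarith
    · rw [if_pos (Or.inr hb), if_neg ha, if_pos hb]; linarith
    · rw [if_neg (not_or.2 ⟨ha, hb⟩), if_neg ha, if_neg hb]; linarith
  refine (Finset.sum_le_sum fun p _ => Finset.sum_le_sum fun q _ => hle p q).trans ?_
  simp only [Finset.sum_add_distrib, Finset.sum_ite_eq', Finset.mem_univ, if_true]
  rw [show (∑ k, ∑ l, ‖c k l‖ ^ 2) = ∑ p, ‖C p‖ ^ 2 from
    (Fintype.sum_prod_type (fun p : Fin K × Fin K => ‖C p‖ ^ 2)).symm]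
  have hswap : ∑ p : Fin K × Fin K, ‖C p.swap‖ ^ 2 = ∑ p, ‖C p‖ ^ 2 :=
    (Equiv.prodComm (Fin K) (Fin K)).sum_comp fun p => ‖C p‖ ^ 2
  have hN : 0 ≤ N := Nat.cast_nonneg _
  calc _ ≤ (∑ p, N * ‖C p‖ ^ 2) + ∑ p, N * ((‖C p‖ ^ 2 + ‖C p.swap‖ ^ 2) / 2) :=
        add_le_add (le_of_eq (Finset.sum_congr rfl fun p _ => by rw [sq]))
          (Finset.sum_le_sum fun p _ => mul_le_mul_of_nonneg_left
            (by nlinarith [sq_nonneg (‖C p‖ - ‖C p.swap‖)]) hN)
    _ = _ := by
        rw [← Finset.mul_sum, ← Finset.mul_sum, ← Finset.sum_div, Finset.sum_add_distrib, hswap]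
        ring

omit [CompleteSpace H] in
/-- A colouring below the average. -/
theorem exists_colour (hr : 0 < r) {m : ℕ} (c : Fin m → Fin K → Fin K → E) {T : ℝ}
    (hT : ∀ i, ∑ k, ∑ l, ‖c i k l‖ ^ 2 ≤ T) :
    ∃ σ : Fin K → Fin r, ∑ i, ‖∑ k, ∑ l, (dev σ k l : ℂ) • c i k l‖ ^ 2 ≤ 2 * m * T := by
  have : NeZero r := ⟨hr.ne'⟩
  have hsum : ∑ σ : Fin K → Fin r, ∑ i, ‖∑ k, ∑ l, (dev σ k l : ℂ) • c i k l‖ ^ 2 ≤
      ∑ _σ : Fin K → Fin r, 2 * (m : ℝ) * T := by
    rw [Finset.sum_comm]
    refine (Finset.sum_le_sum fun i _ => (sum_sq_dev_vec hr (c i)).trans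
      (mul_le_mul_of_nonneg_left (hT i) (by positivity))).trans (le_of_eq ?_)
    simp
    ring
  obtain ⟨σ, -, hσ⟩ := Finset.exists_le_of_sum_le Finset.univ_nonempty hsum
  exact ⟨σ, hσ⟩

omit [CompleteSpace H] in
/-- Independent choices with mean zero: some choice is below the sum of the second moments. -/
theorem exists_choice {J : Type*} [Fintype J] (lam : J → ℝ) (h0 : ∀ j, 0 ≤ lam j)
    (h1 : ∑ j, lam j = 1) {m K : ℕ} (v : Fin m → Fin K → J → E)
    (hv : ∀ i k, ∑ j, lam j • v i k j = 0) :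
    ∃ ch : Fin K → J, ∑ i, ‖∑ k, v i k (ch k)‖ ^ 2 ≤
      ∑ i, ∑ k, ∑ j, lam j * ‖v i k j‖ ^ 2 := by
  induction K with
  | zero => exact ⟨fun k => k.elim0, by simp⟩
  | succ K ih =>
      obtain ⟨ch, hch⟩ := ih (fun i k => v i k.castSucc) (fun i k => hv i k.castSucc)
      set S : Fin m → E := fun i => ∑ k : Fin K, v i k.castSucc (ch k)
      have hcross : ∀ i, ∑ j, lam j * RCLike.re ⟪S i, v i (Fin.last K) j⟫_ℂ = 0 := by
        intro i
        have : (∑ j, lam j * RCLike.re ⟪S i, v i (Fin.last K) j⟫_ℂ) =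
            RCLike.re ⟪S i, ∑ j, lam j • v i (Fin.last K) j⟫_ℂ := by
          simp only [inner_sum, map_sum]
          refine Finset.sum_congr rfl fun j _ => ?_
          rw [RCLike.real_smul_eq_coe_smul (K := ℂ), inner_smul_right, RCLike.re_ofReal_mul]
        rw [this, hv i (Fin.last K), inner_zero_right, map_zero]
      have havg : ∑ j, lam j * ∑ i, ‖S i + v i (Fin.last K) j‖ ^ 2 =
          ∑ i, ‖S i‖ ^ 2 + ∑ i, ∑ j, lam j * ‖v i (Fin.last K) j‖ ^ 2 := by
        simp only [Finset.mul_sum]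
        rw [Finset.sum_comm, ← Finset.sum_add_distrib]
        refine Finset.sum_congr rfl fun i _ => ?_
        simp only [@norm_add_sq ℂ, mul_add, Finset.sum_add_distrib]
        rw [← Finset.sum_mul, h1, one_mul]
        rw [show (∑ j, lam j * (2 * RCLike.re ⟪S i, v i (Fin.last K) j⟫_ℂ)) =
            2 * ∑ j, lam j * RCLike.re ⟪S i, v i (Fin.last K) j⟫_ℂ by
          rw [Finset.mul_sum]; exact Finset.sum_congr rfl fun j _ => by ring, hcross i,
          mul_zero, add_zero]
      obtain ⟨j₀, hj₀⟩ : ∃ j, ∑ i, ‖S i + v i (Fin.last K) j‖ ^ 2 ≤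
          ∑ i, ‖S i‖ ^ 2 + ∑ i, ∑ j, lam j * ‖v i (Fin.last K) j‖ ^ 2 := by
        by_contra hno
        push Not at hno
        obtain ⟨j, hj⟩ : ∃ j, 0 < lam j := by
          by_contra hz
          push Not at hz
          have : ∑ j, lam j = 0 := Finset.sum_eq_zero fun j _ => le_antisymm (hz j) (h0 j)
          linarith
        have hlt : ∑ j, lam j * (∑ i, ‖S i‖ ^ 2 + ∑ i, ∑ j, lam j * ‖v i (Fin.last K) j‖ ^ 2) <
            ∑ j, lam j * ∑ i, ‖S i + v i (Fin.last K) j‖ ^ 2 :=
          Finset.sum_lt_sum (fun j _ => mul_le_mul_of_nonneg_left (hno j).le (h0 j))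
            ⟨j, Finset.mem_univ j, mul_lt_mul_of_pos_left (hno j) hj⟩
        rw [← Finset.sum_mul, h1, one_mul, havg] at hlt
        exact lt_irrefl _ hlt
      refine ⟨Fin.snoc ch j₀, ?_⟩
      simp only [Fin.sum_univ_castSucc, Fin.snoc_castSucc, Fin.snoc_last, Finset.sum_add_distrib]
      refine hj₀.trans ?_
      linarith

end vectors

end Vale.Agent.P078.Singular
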