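import Vale.Agent.P078.Singular.Steps
import Vale.Agent.P078.Singular.Defs

/-!
So-paving with more than `1 / ε` pieces below a projection killed by the normal central
functionals.
-/

namespace Vale.Agent.P078.Singular

open Filter Topology
open scoped InnerProductSpace

variable {H : Type} [NormedAddCommGroup H] [InnerProductSpace ℂ H] [CompleteSpace H]
variable {M A : VonNeumannAlgebra H}

/-- The classes of a colouring. -/
noncomputable def cls {N r : ℕ} (g : Fin N → (H →L[ℂ] H)) (σ : Fin N → Fin r) (i : Fin r) :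
    H →L[ℂ] H :=
  ∑ k with σ k = i, g k

theorem isPart_cls {N r : ℕ} {g : Fin N → (H →L[ℂ] H)} (hg : IsPart A g) (σ : Fin N → Fin r) :
    IsPart A (cls g σ) := by
  classical
  have hmul : ∀ i i', cls g σ i * cls g σ i' = if i = i' then cls g σ i else 0 := by
    intro i i'
    simp only [cls]
    rw [Finset.sum_mul]
    split_ifs with hii
    · subst hii
      refine Finset.sum_congr rfl fun k hk => ?_
      rw [Finset.mul_sum, Finset.sum_eq_single_of_mem k hk fun l _ hl => hg.2.1 k l (Ne.symm hl),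
        (hg.1 k).2.isIdempotentElem.eq]
    · refine Finset.sum_eq_zero fun k hk => ?_
      rw [Finset.mul_sum]
      refine Finset.sum_eq_zero fun l hl => hg.2.1 k l fun h => hii ?_
      rw [← (Finset.mem_filter.1 hk).2, ← (Finset.mem_filter.1 hl).2, h]
  refine ⟨fun i => ⟨sum_mem fun k _ => (hg.1 k).1, (hmul i i).trans (if_pos rfl), ?_⟩,
    fun i i' h => (hmul i i').trans (if_neg h), ?_⟩
  · show star (cls g σ i) = cls g σ i
    simp only [cls, star_sum, (hg.1 _).2.isSelfAdjoint.star_eq]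
  · rw [show ∑ i, cls g σ i = ∑ k, g k from Finset.sum_fiberwise _ σ g, hg.2.2]

omit [CompleteSpace H] in
theorem pinch_cls {N r : ℕ} (g : Fin N → (H →L[ℂ] H)) (σ : Fin N → Fin r) (x : H →L[ℂ] H) :
    pinch (cls g σ) x = ∑ k, ∑ l, if σ k = σ l then g k * x * g l else 0 := by
  classical
  simp only [pinch, cls, Finset.sum_mul, Finset.mul_sum, Finset.sum_filter, ite_mul, mul_ite,
    zero_mul, mul_zero]
  rw [Finset.sum_comm]
  conv_rhs => rw [Finset.sum_comm]
  refine Finset.sum_congr rfl fun y _ => ?_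
  rw [Finset.sum_ite_eq, if_pos (Finset.mem_univ _)]

/-- A colouring whose pinching is close to the mean on given vectors after applying `q'`. -/
theorem exists_coloured {N r : ℕ} (hr : 0 < r) {g : Fin N → (H →L[ℂ] H)} (hg : IsPart A g)
    {q' : H →L[ℂ] H} {κ : ℝ} (hκ : 0 ≤ κ) (hsmall : ∀ n u, ‖q' (g n u)‖ ^ 2 ≤ κ * ‖g n u‖ ^ 2)
    (x : H →L[ℂ] H) {m : ℕ} (w : Fin m → H) :
    ∃ σ : Fin N → Fin r, ∀ i, ‖q' ((pinch (cls g σ) x - ((r : ℝ)⁻¹ • x +
        (1 - (r : ℝ)⁻¹) • pinch g x)) (w i))‖ ≤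
      Real.sqrt (2 * m * (κ * ‖x‖ ^ 2 * ∑ i, ‖w i‖ ^ 2)) := by
  classical
  set c : Fin m → Fin N → Fin N → H := fun i k l => q' (g k (x (g l (w i))))
  have hT : ∀ i, ∑ k, ∑ l, ‖c i k l‖ ^ 2 ≤ κ * ‖x‖ ^ 2 * ∑ i, ‖w i‖ ^ 2 := by
    intro i
    rw [Finset.sum_comm]
    calc ∑ l, ∑ k, ‖c i k l‖ ^ 2 ≤ ∑ l, κ * (‖x‖ * ‖g l (w i)‖) ^ 2 := by
          refine Finset.sum_le_sum fun l _ => ?_
          refine (Finset.sum_le_sum fun k _ => hsmall k _).trans ?_
          rw [← Finset.mul_sum, hg.sum_norm_sq]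
          exact mul_le_mul_of_nonneg_left (pow_le_pow_left₀ (norm_nonneg _) (x.le_opNorm _) 2) hκ
      _ = κ * ‖x‖ ^ 2 * ‖w i‖ ^ 2 := by
          simp only [mul_pow, ← mul_assoc, ← Finset.mul_sum, hg.sum_norm_sq]
      _ ≤ κ * ‖x‖ ^ 2 * ∑ i, ‖w i‖ ^ 2 := mul_le_mul_of_nonneg_left
          (Finset.single_le_sum (f := fun i => ‖w i‖ ^ 2) (fun i _ => sq_nonneg _)
            (Finset.mem_univ i)) (by positivity)
  obtain ⟨σ, hσ⟩ := exists_colour hr c hT
  refine ⟨σ, fun i => Real.le_sqrt_of_sq_le (le_trans ?_ hσ)⟩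
  refine le_trans (le_of_eq ?_) (Finset.single_le_sum
    (f := fun i => ‖∑ k, ∑ l, (dev σ k l : ℂ) • c i k l‖ ^ 2) (fun i _ => sq_nonneg _)
    (Finset.mem_univ i))
  have hx : x = ∑ k, ∑ l, g k * x * g l := by
    simp only [← Finset.mul_sum, hg.2.2, mul_one, ← Finset.sum_mul, one_mul]
  have e : pinch (cls g σ) x - ((r : ℝ)⁻¹ • x + (1 - (r : ℝ)⁻¹) • pinch g x) =
      ∑ k, ∑ l, (dev σ k l : ℂ) • (g k * x * g l) := by
    have hp : pinch g x = ∑ k, ∑ l, if k = l then g k * x * g l else 0 := by simp [pinch]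
    rw [pinch_cls, hp]
    conv_lhs => arg 2; arg 1; rw [hx]
    simp only [Finset.smul_sum, ← Finset.sum_add_distrib, ← Finset.sum_sub_distrib]
    refine Finset.sum_congr rfl fun k _ => Finset.sum_congr rfl fun l _ => ?_
    simp only [RCLike.real_smul_eq_coe_smul (K := ℂ), dev, meanI]
    by_cases hkl : k = l
    · subst hkl
      simp only [if_true]
      push_cast
      rw [sub_self, zero_smul, sub_smul, one_smul]
      abel
    · simp only [if_neg hkl, smul_zero, add_zero]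
      split_ifs <;> simp [sub_smul]
  congr 2
  simp [e, c, sum_apply, map_sum]

/-- The last cut. -/
theorem second_cut {q' D : H →L[ℂ] H} (hq' : IsPr M q') (hDM : D ∈ M) (hD : IsSelfAdjoint D)
    {c γ : ℝ} (hDc : ‖D‖ ≤ c) (hγ : 0 < γ) :
    ∃ q'', IsPr M q'' ∧ q'' * q' = q'' ∧ ‖q'' * D * q''‖ ≤ γ ∧
      ∀ v, γ ^ 2 * ‖(q' - q'') v‖ ≤ c * ‖(q' * D * q') v‖ := by
  set C := q' * D * q' with hCdef
  have hCsa : IsSelfAdjoint C := by
    show star C = C
    simp only [hCdef, star_mul, hq'.2.isSelfAdjoint.star_eq, hD.star_eq, mul_assoc]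
  have hCM : C ∈ M := mul_mem (mul_mem hq'.1 hDM) hq'.1
  have hC2 : (0 : H →L[ℂ] H) ≤ C * C := by
    conv => rhs; arg 1; rw [← hCsa.star_eq]
    exact star_mul_self_nonneg C
  have hqC : q' * C = C := by simp only [hCdef, ← mul_assoc, hq'.2.isIdempotentElem.eq]
  have hCn : ‖C‖ ≤ c := by
    refine le_trans ?_ hDc
    refine (norm_mul_le _ _).trans ?_
    refine (mul_le_of_le_one_right (norm_nonneg _) hq'.2.norm_le).trans ?_
    exact (norm_mul_le _ _).trans (mul_le_of_le_one_left (norm_nonneg _) hq'.2.norm_le)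
  obtain ⟨P, hPM, hPP, -, hcut, hbelow, hle, -⟩ := cut M (mul_mem hCM hCM) hC2 (t := γ ^ 2)
    (by positivity)
  have hPq : P * q' = P := hle q' hq'.2 (by rw [← mul_assoc, hqC])
  set q'' := q' - P with hq''def
  have hq'' : IsPr M q'' := ⟨sub_mem hq'.1 hPM, sub_proj hq'.2 hPP hPq⟩
  have hq''q : q'' * q' = q'' := by rw [sub_mul, hq'.2.isIdempotentElem.eq, hPq]
  refine ⟨q'', hq'', hq''q, ?_, fun v => ?_⟩
  · have hCq : ‖C * q''‖ ≤ γ := by
      refine ContinuousLinearMap.opNorm_le_bound _ hγ.le fun v => le_of_sq_le_sq ?_ (by positivity)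
      set u := q'' v
      have hu : ‖u‖ ≤ ‖v‖ := norm_proj_apply_le hq''.2 v
      have h2 : ‖(C * C) u‖ ≤ γ ^ 2 * ‖v‖ := by
        have : u = (1 - P) (q' v) := by
          rw [show u = q'' v from rfl, ← mul_apply_eq_comp, hq''def, sub_mul, one_mul, hPq]
        rw [this]
        exact (hcut _).trans (mul_le_mul_of_nonneg_left (norm_proj_apply_le hq'.2 v) (sq_nonneg γ))
      have h3 : ‖C u‖ ^ 2 = (⟪u, (C * C) u⟫_ℂ).re := by
        rw [mul_apply_eq_comp C C, ← hCsa.adjoint_eq, ContinuousLinearMap.adjoint_inner_right,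
          hCsa.adjoint_eq, inner_self_eq_norm_sq_to_K]
        norm_cast
      calc ‖(C * q'') v‖ ^ 2 = ‖C u‖ ^ 2 := rfl
        _ = _ := h3
        _ ≤ ‖u‖ * ‖(C * C) u‖ := (Complex.re_le_norm _).trans (norm_inner_le_norm _ _)
        _ ≤ ‖v‖ * (γ ^ 2 * ‖v‖) := mul_le_mul hu h2 (norm_nonneg _) (norm_nonneg _)
        _ = (γ * ‖v‖) ^ 2 := by ring
    have hq'q'' : q' * q'' = q'' := le_mul_comm hq'.2 hq''.2 hq''q
    have : q'' * D * q'' = q'' * (C * q'') := by
      rw [hCdef]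
      calc q'' * D * q'' = (q'' * q') * D * (q' * q'') := by rw [hq''q, hq'q'']
        _ = _ := by simp only [mul_assoc]
    rw [this]
    exact (norm_mul_le _ _).trans
      ((mul_le_of_le_one_left (norm_nonneg _) hq''.2.norm_le).trans hCq)
  · rw [hq''def, sub_sub_cancel]
    refine (hbelow v).trans ?_
    rw [mul_apply_eq_comp]
    exact (C.le_opNorm _).trans (mul_le_mul_of_nonneg_right hCn (norm_nonneg _))

omit [CompleteSpace H] in
/-- The two errors give the distance from the mean. -/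
theorem mean_close {q' S T x a : H →L[ℂ] H} {ρ A₁ A₂ : ℝ} (hρ0 : 0 ≤ ρ) (hρ1 : ρ ≤ 1) (v : H)
    (h1 : ‖q' ((S - (ρ • x + (1 - ρ) • T)) (q' v))‖ ≤ A₁) (h2 : ‖q' ((T - a) (q' v))‖ ≤ A₂) :
    ‖(q' * (S - (1 - ρ) • a - ρ • x) * q') v‖ ≤ A₁ + A₂ := by
  have hsplit : (S - (1 - ρ) • a - ρ • x) (q' v) = (S - (ρ • x + (1 - ρ) • T)) (q' v) +
      (1 - ρ) • (T - a) (q' v) := by
    simp only [sub_apply, add_apply, smul_apply, smul_sub]
    abel
  rw [mul_apply_eq_comp, mul_apply_eq_comp, hsplit, map_add,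
    ContinuousLinearMap.map_smul_of_tower]
  refine (norm_add_le _ _).trans (add_le_add h1 ?_)
  rw [norm_smul, Real.norm_of_nonneg (sub_nonneg.2 hρ1)]
  exact (mul_le_of_le_one_left (norm_nonneg _) (by linarith)).trans h2

/-- The size of the errors. -/
theorem err_le {m κ X W V η : ℝ} (hm : 0 ≤ m) (hX : 0 < X) (hη : 0 < η) (hW : 0 < W) (hV0 : 0 ≤ V)
    (hV : V ≤ W) (hκ : κ = η ^ 2 / (4 * (m + 1) * X ^ 2 * W)) :
    Real.sqrt (2 * m * (κ * X ^ 2 * V)) ≤ η ∧ Real.sqrt (4 * κ * X ^ 2 * V) ≤ η := by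
  have hκ0 : 0 ≤ κ := by rw [hκ]; positivity
  have hb : 4 * (m + 1) * (κ * X ^ 2 * W) = η ^ 2 := by rw [hκ]; field_simp
  have hle : κ * X ^ 2 * V ≤ κ * X ^ 2 * W := mul_le_mul_of_nonneg_left hV (by positivity)
  have h0 : 0 ≤ κ * X ^ 2 * V := by positivity
  constructor <;> refine Real.sqrt_le_iff.2 ⟨hη.le, ?_⟩ <;> nlinarith

/-- The paving below `p₀`. -/
theorem so_paving₀ (hAM : ∀ y ∈ A, y ∈ M) (hab : ∀ y ∈ A, ∀ z ∈ A, y * z = z * y)
    (hmax : ∀ y ∈ M, (∀ z ∈ A, z * y = y * z) → y ∈ A) {p₀ : H →L[ℂ] H} (hp₀ : IsPr A p₀)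
    (h0 : ∀ f, IsNormalCentral M A f → f p₀ = 0) {x : H →L[ℂ] H} (hxM : x ∈ M)
    (hx : IsSelfAdjoint x) {ε : ℝ} {r : ℕ} (hεr : 1 < ε * r) :
    SoPavable M A p₀ (p₀ * x * p₀) ε r := by
  classical
  intro F δ hδ
  have hr : 0 < r := Nat.pos_of_ne_zero fun h => by subst h; simp at hεr; linarith
  have hp₀M : IsPr M p₀ := ⟨hAM _ hp₀.1, hp₀.2⟩
  set x₀ := p₀ * x * p₀ with hx₀def
  rcases eq_or_ne x₀ 0 with h | hX
  · refine ⟨fun i => if i = ⟨0, hr⟩ then p₀ else 0, 0, p₀, fun i => ?_, fun i j hij => ?_,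
      by simp, zero_mem _, .zero _, by simp, by simp, hp₀M.1, hp₀.2,
      hp₀.2.isIdempotentElem.eq, fun ξ _ => by simpa using hδ, by simp [h]⟩
    · dsimp only; split_ifs
      · exact hp₀
      · exact ⟨zero_mem _, .zero _⟩
    · dsimp only
      split_ifs with h1 h2
      · exact absurd (h1.trans h2.symm) hij
      all_goals simp only [mul_zero, zero_mul]
  set X := ‖x₀‖
  have hXpos : 0 < X := norm_pos_iff.2 hX
  have hx₀sa : IsSelfAdjoint x₀ := by
    show star x₀ = x₀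
    simp only [hx₀def, star_mul, hp₀.2.isSelfAdjoint.star_eq, hx.star_eq, mul_assoc]
  have hx₀M : x₀ ∈ M := mul_mem (mul_mem hp₀M.1 hxM) hp₀M.1
  have hxp : x₀ * p₀ = x₀ := by rw [hx₀def, mul_assoc, hp₀.2.isIdempotentElem.eq]
  have hpx : p₀ * x₀ = x₀ := by simp only [hx₀def, ← mul_assoc, hp₀.2.isIdempotentElem.eq]
  have hrpos : (0 : ℝ) < r := by exact_mod_cast hr
  set ρ := (r : ℝ)⁻¹
  have hρ0 : 0 ≤ ρ := by positivity
  have hρ1 : ρ ≤ 1 := inv_le_one_of_one_le₀ (by exact_mod_cast hr)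
  set γ : ℝ := (ε - ρ) * X with hγdef
  have hγ : 0 < γ := by
    refine mul_pos ?_ hXpos
    rw [sub_pos, inv_lt_iff_one_lt_mul₀ hrpos]
    linarith
  obtain ⟨a, haA, hasa, hap, haX, halim⟩ := exists_expect hAM hab hmax hx₀M hx₀sa hp₀ hxp
  set ξ : Fin F.card → H := fun i => (F.equivFin.symm i : H)
  set b : Fin F.card → H := fun i => p₀ (ξ i)
  obtain ⟨φ, hφ, hφlim⟩ := exists_limit_functional (M := M) hab hp₀ b
    fun i => apply_self_of_proj hp₀.2 _
  set W := ∑ i, ‖ξ i‖ ^ 2 + 1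
  have hWpos : 0 < W := by positivity
  set η := γ ^ 2 * δ / (36 * X) with hηdef
  have hη : 0 < η := by positivity
  set κ := η ^ 2 / (4 * ((F.card : ℝ) + 1) * X ^ 2 * W) with hκdef
  have hκ : 0 < κ := by positivity
  set δ₂ := min (δ * κ ^ 2 / 12) (δ / 4) with hδ₂def
  have hδ₂ : 0 < δ₂ := by positivity
  obtain ⟨q, hq, hqp, hφq, hqF⟩ := hφ.exists_killed hAM hp₀ h0 F hδ₂
  -- a partition small at `q`
  have hev : ∀ᶠ s in (↑(refUlt H) : Filter (Finset (H →L[ℂ] H))), ∀ i,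
      ∑ k, ‖q (part hab s k (b i))‖ ^ 2 < δ₂ ^ 2 := by
    have h := (Complex.continuous_re.tendsto _).comp (hφlim q)
    rw [hφq, Complex.zero_re] at h
    filter_upwards [h.eventually (gt_mem_nhds (sq_pos_of_pos hδ₂))] with s hs i
    refine lt_of_le_of_lt ?_ hs
    simp only [Function.comp_apply, Complex.re_sum]
    have hterm : ∀ j, (⟪b j, pinch (part hab s) q (b j)⟫_ℂ).re =
        ∑ k, ‖q (part hab s k (b j))‖ ^ 2 := fun j => by
      rw [show pinch (part hab s) q = pinch (part hab s) (star q * q) by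
        rw [hq.2.isSelfAdjoint.star_eq, hq.2.isIdempotentElem.eq],
        inner_pinch_star (isPart_part hab s), Complex.ofReal_re]
    simp only [hterm]
    exact Finset.single_le_sum (f := fun j => ∑ k, ‖q (part hab s k (b j))‖ ^ 2)
      (fun j _ => Finset.sum_nonneg fun k _ => sq_nonneg _) (Finset.mem_univ i)
  obtain ⟨s₀, hs₀⟩ := hev.exists
  set e := part hab s₀
  have he : IsPart A e := isPart_part hab s₀
  obtain ⟨q', hq', hq'q, hsmall, hdiff⟩ := sharp_cut hAM he hq hκ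
  have hq'p : q' * p₀ = q' := by rw [← hq'q, mul_assoc, hqp]
  -- the refinement and the colouring
  set w : Fin F.card → H := fun i => q' (ξ i)
  have hw : ∑ i, ‖w i‖ ^ 2 ≤ W := (Finset.sum_le_sum fun i _ =>
    pow_le_pow_left₀ (norm_nonneg _) (norm_proj_apply_le hq'.2 _) 2).trans (by simp [W])
  obtain ⟨N, g, hg, hgsmall, hga⟩ := exists_refined hab he hq'.2 hκ.le hsmall halim w hη
  obtain ⟨σ, hσ⟩ := exists_coloured hr hg hκ.le hgsmall x₀ w
  set S := pinch (cls g σ) x₀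
  have hS : IsPart A (cls g σ) := isPart_cls hg σ
  set a' := (1 - ρ) • a
  set D := S - a' - ρ • x₀ with hDdef
  have hDn : ‖D‖ ≤ 3 * X := by
    refine (norm_sub_le _ _).trans ?_
    rw [show (3 : ℝ) * X = X + X + X by ring]
    refine add_le_add ((norm_sub_le _ _).trans (add_le_add (hS.norm_pinch_le x₀) ?_)) ?_
    · rw [norm_smul, Real.norm_of_nonneg (sub_nonneg.2 hρ1)]
      exact (mul_le_of_le_one_left (norm_nonneg _) (by linarith)).trans haX
    · rw [norm_smul, Real.norm_of_nonneg hρ0]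
      exact mul_le_of_le_one_left (norm_nonneg _) hρ1
  have hSsa : IsSelfAdjoint S := pinch_selfAdjoint hS hx₀sa
  have hDsa : IsSelfAdjoint D :=
    (hSsa.sub ((IsSelfAdjoint.all _).smul hasa)).sub ((IsSelfAdjoint.all _).smul hx₀sa)
  have ha'A : a' ∈ A := by
    simp only [a', RCLike.real_smul_eq_coe_smul (K := ℂ)]
    exact A.toStarSubalgebra.smul_mem haA _
  have hDM : D ∈ M := by
    refine sub_mem (sub_mem ?_ (hAM _ ha'A)) ?_
    · exact sum_mem fun k _ => mul_mem (mul_mem (hAM _ (hS.1 k).1) hx₀M) (hAM _ (hS.1 k).1)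
    · rw [RCLike.real_smul_eq_coe_smul (K := ℂ)]
      exact M.toStarSubalgebra.smul_mem hx₀M _
  obtain ⟨e₁, e₂⟩ := err_le (Nat.cast_nonneg F.card) hXpos hη hWpos
    (Finset.sum_nonneg fun i _ => sq_nonneg ‖w i‖) hw hκdef
  have hCξ : ∀ i, ‖(q' * D * q') (ξ i)‖ ≤ η + (η + η) := fun i =>
    mean_close hρ0 hρ1 (ξ i) ((hσ i).trans e₁) ((hga i).trans (add_le_add e₂ le_rfl))
  obtain ⟨q'', hq'', hq''q, hnorm, hdiff'⟩ := second_cut hq' hDM hDsa hDn hγ
  have hq''p : q'' * p₀ = q'' := by rw [← hq''q, mul_assoc, hq'p]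
  refine ⟨fun i => cls g σ i * p₀, a', q'', fun i => isPr_mul hab (hS.1 i) hp₀, fun i j hij => ?_,
    ?_, ha'A, (IsSelfAdjoint.all _).smul hasa, ?_, ?_, hq''.1, hq''.2, hq''p, fun ζ hζ => ?_, ?_⟩
  · rw [mul_assoc, ← mul_assoc p₀, hab _ hp₀.1 _ (hS.1 j).1, mul_assoc,
      hp₀.2.isIdempotentElem.eq, ← mul_assoc, hS.2.1 i j hij, zero_mul]
  · rw [← Finset.sum_mul, hS.2.2, one_mul]
  · rw [show a' = (1 - ρ) • a from rfl, smul_mul_assoc, hap]
  · rw [show a' = (1 - ρ) • a from rfl, norm_smul, Real.norm_of_nonneg (sub_nonneg.2 hρ1)]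
    exact (mul_le_of_le_one_left (norm_nonneg _) (by linarith)).trans haX
  · obtain ⟨i, rfl⟩ : ∃ i, ξ i = ζ := ⟨F.equivFin ⟨ζ, hζ⟩, by simp [ξ]⟩
    have h1 : ‖(p₀ - q) (ξ i)‖ < δ₂ := hqF _ hζ
    have hTn : ‖pinch e q‖ ≤ 1 := (he.norm_pinch_le q).trans hq.2.norm_le
    have h2 : ‖(q * pinch e q * q) (ξ i)‖ ≤ 2 * δ₂ := by
      rw [mul_apply_eq_comp, mul_apply_eq_comp]
      refine (norm_proj_apply_le hq.2 _).trans ?_
      have hqb : q (ξ i) = b i - (p₀ - q) (ξ i) := by simp [b]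
      rw [hqb, map_sub]
      refine (norm_sub_le _ _).trans ?_
      have hTb : ‖pinch e q (b i)‖ ≤ δ₂ := by
        refine le_of_sq_le_sq ?_ hδ₂.le
        rw [pinch, sum_apply]
        simp only [mul_apply_eq_comp]
        rw [he.norm_sum_sq fun k => q (e k (b i))]
        exact (Finset.sum_le_sum fun k _ => pow_le_pow_left₀ (norm_nonneg _)
          (norm_proj_apply_le (he.1 k).2 _) 2).trans (hs₀ i).le
      have := (pinch e q).le_of_opNorm_le hTn ((p₀ - q) (ξ i))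
      rw [one_mul] at this
      linarith
    have h3 : ‖(q - q') (ξ i)‖ ≤ δ / 6 := by
      have h := (hdiff (ξ i)).trans h2
      have : δ₂ ≤ δ * κ ^ 2 / 12 := min_le_left _ _
      have hk : 0 < κ ^ 2 := by positivity
      nlinarith
    have h4 : ‖(q' - q'') (ξ i)‖ ≤ δ / 4 := by
      have h := (hdiff' (ξ i)).trans (mul_le_mul_of_nonneg_left (hCξ i) (by positivity))
      have he2 : 3 * X * (η + (η + η)) = γ ^ 2 * (δ / 4) := by rw [hηdef]; field_simp; ring
      rw [he2] at h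
      exact le_of_mul_le_mul_left h (by positivity)
    have h5 : δ₂ ≤ δ / 4 := min_le_right _ _
    calc ‖(p₀ - q'') (ξ i)‖ = ‖(p₀ - q) (ξ i) + (q - q') (ξ i) + (q' - q'') (ξ i)‖ := by
          simp only [sub_apply]; congr 1; abel
      _ ≤ ‖(p₀ - q) (ξ i)‖ + ‖(q - q') (ξ i)‖ + ‖(q' - q'') (ξ i)‖ := norm_add₃_le
      _ < δ := by linarith
  · have hsumP : ∑ i, cls g σ i * p₀ * x₀ * (cls g σ i * p₀) = S := by
      refine Finset.sum_congr rfl fun i _ => ?_
      rw [mul_assoc (cls g σ i) p₀, hpx, hab _ (hS.1 i).1 _ hp₀.1, ← mul_assoc, mul_assoc _ x₀ p₀,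
        hxp]
    rw [hsumP]
    have hsplit : q'' * (S - a') * q'' = q'' * D * q'' + ρ • (q'' * x₀ * q'') := by
      simp only [hDdef, mul_sub, sub_mul, mul_smul_comm, smul_mul_assoc]
      abel
    rw [hsplit]
    refine (norm_add_le _ _).trans ?_
    have h2 : ‖ρ • (q'' * x₀ * q'')‖ ≤ ρ * X := by
      rw [norm_smul, Real.norm_of_nonneg hρ0]
      refine mul_le_mul_of_nonneg_left ?_ hρ0
      calc ‖q'' * x₀ * q''‖ ≤ ‖q''‖ * X * ‖q''‖ :=
            (norm_mul_le _ _).trans (mul_le_mul_of_nonneg_right (norm_mul_le _ _) (norm_nonneg _))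
        _ ≤ 1 * X * 1 := by
            have := hq''.2.norm_le
            gcongr
        _ = X := by ring
    calc _ ≤ γ + ρ * X := add_le_add hnorm h2
      _ = ε * X := by rw [hγdef]; ring

end Vale.Agent.P078.Singular
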