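import Vale.Agent.P078.Singular.Pieces

/-!
The two steps of the paving: a projection on which every piece of a partition is small, and a
partition whose pinching is close to the mean on given vectors.
-/

namespace Vale.Agent.P078.Singular

open Filter Topology
open scoped InnerProductSpace

variable {H : Type} [NormedAddCommGroup H] [InnerProductSpace ℂ H] [CompleteSpace H]
variable {M A : VonNeumannAlgebra H}

/-- On `q'` all pieces of `e` are small. -/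
theorem sharp_cut (hAM : ∀ y ∈ A, y ∈ M) {K : ℕ} {e : Fin K → (H →L[ℂ] H)} (he : IsPart A e)
    {q : H →L[ℂ] H} (hq : IsPr M q) {κ : ℝ} (hκ : 0 < κ) :
    ∃ q', IsPr M q' ∧ q' * q = q' ∧ (∀ k u, ‖q' (e k u)‖ ^ 2 ≤ κ * ‖u‖ ^ 2) ∧
      ∀ v, κ ^ 2 * ‖(q - q') v‖ ≤ ‖(q * pinch e q * q) v‖ := by
  set T := pinch e q with hTdef
  set B := q * T * q with hBdef
  have hq0 : (0 : H →L[ℂ] H) ≤ q := by
    rw [← hq.2.isIdempotentElem.eq]
    conv => rhs; arg 1; rw [← hq.2.isSelfAdjoint.star_eq]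
    exact star_mul_self_nonneg q
  have hT0 : 0 ≤ T := Finset.sum_nonneg fun k _ => conj_proj_nonneg (he.1 k).2 hq0
  have hB0 : 0 ≤ B := conj_proj_nonneg hq.2 hT0
  have hBM : B ∈ M := mul_mem (mul_mem hq.1 (sum_mem fun k _ =>
    mul_mem (mul_mem (hAM _ (he.1 k).1) hq.1) (hAM _ (he.1 k).1))) hq.1
  obtain ⟨P, hPM, hPP, -, hcut, hbelow, hle, -⟩ := cut M hBM hB0 (t := κ ^ 2) (by positivity)
  have hqB : q * B = B := by
    simp only [hBdef, ← mul_assoc, hq.2.isIdempotentElem.eq]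
  have hPq : P * q = P := hle q hq.2 hqB
  set q' := q - P with hq'def
  have hq' : IsPr M q' := ⟨sub_mem hq.1 hPM, sub_proj hq.2 hPP hPq⟩
  have hq'q : q' * q = q' := by rw [sub_mul, hq.2.isIdempotentElem.eq, hPq]
  refine ⟨q', hq', hq'q, ?_, fun v => by rw [hq'def, sub_sub_cancel]; exact hbelow v⟩
  have hpiece : ∀ k v, ‖q (e k (q' v))‖ ≤ κ * ‖v‖ := by
    intro k v
    refine le_of_sq_le_sq ?_ (by positivity)
    set w := q' v
    have hqw : q w = w := by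
      rw [← mul_apply_eq_comp, le_mul_comm hq.2 hq'.2 hq'q]
    have hw : ‖w‖ ≤ ‖v‖ := norm_proj_apply_le hq'.2 v
    have h1 : (⟪w, B w⟫_ℂ).re = ∑ k, ‖q (e k w)‖ ^ 2 := by
      rw [hBdef, mul_apply_eq_comp, mul_apply_eq_comp, hqw, ← inner_proj hq.2, hqw, hTdef,
        show pinch e q = pinch e (star q * q) by
          rw [hq.2.isSelfAdjoint.star_eq, hq.2.isIdempotentElem.eq],
        inner_pinch_star he, Complex.ofReal_re]
    have h2 : ‖B w‖ ≤ κ ^ 2 * ‖v‖ := by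
      have : w = (1 - P) (q v) := by
        rw [show w = q' v from rfl, ← mul_apply_eq_comp, hq'def, sub_mul, one_mul, hPq]
      rw [this]
      exact (hcut _).trans (mul_le_mul_of_nonneg_left (norm_proj_apply_le hq.2 v) (sq_nonneg κ))
    calc ‖q (e k w)‖ ^ 2 ≤ ∑ k, ‖q (e k w)‖ ^ 2 :=
          Finset.single_le_sum (f := fun k => ‖q (e k w)‖ ^ 2) (fun j _ => sq_nonneg _)
            (Finset.mem_univ k)
      _ = (⟪w, B w⟫_ℂ).re := h1.symm
      _ ≤ ‖w‖ * ‖B w‖ := (Complex.re_le_norm _).trans (norm_inner_le_norm _ _)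
      _ ≤ ‖v‖ * (κ ^ 2 * ‖v‖) := mul_le_mul hw h2 (norm_nonneg _) (norm_nonneg _)
      _ = (κ * ‖v‖) ^ 2 := by ring
  intro k u
  have h1 : ‖q' * e k * q'‖ ≤ κ := ContinuousLinearMap.opNorm_le_bound _ hκ.le fun v => by
    rw [mul_apply_eq_comp, mul_apply_eq_comp]
    rw [show q' (e k (q' v)) = q' (q (e k (q' v))) by rw [← mul_apply_eq_comp q' q, hq'q]]
    exact (norm_proj_apply_le hq'.2 _).trans (hpiece k v)
  have h2 : ‖q' * e k‖ ^ 2 ≤ κ := by
    rw [sq, ← CStarRing.norm_self_mul_star]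
    rwa [star_mul, hq'.2.isSelfAdjoint.star_eq, (he.1 k).2.isSelfAdjoint.star_eq, mul_assoc,
      ← mul_assoc (e k), (he.1 k).2.isIdempotentElem.eq, ← mul_assoc]
  rw [← mul_apply_eq_comp]
  calc ‖(q' * e k) u‖ ^ 2 ≤ (‖q' * e k‖ * ‖u‖) ^ 2 :=
        pow_le_pow_left₀ (norm_nonneg _) ((q' * e k).le_opNorm u) 2
    _ ≤ κ * ‖u‖ ^ 2 := by rw [mul_pow]; exact mul_le_mul_of_nonneg_right h2 (sq_nonneg _)

/-- A refinement of `e` whose pinching is close to the weak limit `a` on given vectors after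
applying `q'`. -/
theorem exists_refined (hab : ∀ y ∈ A, ∀ z ∈ A, y * z = z * y) {K : ℕ}
    {e : Fin K → (H →L[ℂ] H)} (he : IsPart A e) {q' : H →L[ℂ] H} (hq' : IsStarProjection q')
    {κ : ℝ} (hκ : 0 ≤ κ) (hsmall : ∀ k u, ‖q' (e k u)‖ ^ 2 ≤ κ * ‖u‖ ^ 2)
    {x a : H →L[ℂ] H}
    (ha : ∀ v w, Tendsto (fun s => ⟪pinch (part hab s) x v, w⟫_ℂ)
      (↑(refUlt H) : Filter (Finset (H →L[ℂ] H))) (𝓝 ⟪a v, w⟫_ℂ))
    {m : ℕ} (w : Fin m → H) {η : ℝ} (hη : 0 < η) :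
    ∃ (N : ℕ) (g : Fin N → (H →L[ℂ] H)), IsPart A g ∧
      (∀ n u, ‖q' (g n u)‖ ^ 2 ≤ κ * ‖g n u‖ ^ 2) ∧
      ∀ i, ‖q' ((pinch g x - a) (w i))‖ ≤
        Real.sqrt (4 * κ * ‖x‖ ^ 2 * ∑ i, ‖w i‖ ^ 2) + η := by
  classical
  set C : Set (PiLp 2 fun _ : Fin m => H) :=
    {z | ∃ s, (∀ k, Compat (part hab s) (e k)) ∧
      z = WithLp.toLp 2 fun i => pinch (part hab s) x (w i)}
  set u : PiLp 2 fun _ : Fin m => H := WithLp.toLp 2 fun i => a (w i)
  have hu : ∀ z : PiLp 2 (fun _ : Fin m => H), ∀ ε : ℝ, 0 < ε →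
      ∃ c ∈ C, |RCLike.re ⟪z, c⟫_ℂ - RCLike.re ⟪z, u⟫_ℂ| < ε := by
    intro z ε hε
    have ht : Tendsto (fun s => ∑ i, (⟪pinch (part hab s) x (w i), z i⟫_ℂ).re)
        (↑(refUlt H) : Filter (Finset (H →L[ℂ] H))) (𝓝 (∑ i, (⟪a (w i), z i⟫_ℂ).re)) :=
      tendsto_finsetSum _ fun i _ => (Complex.continuous_re.tendsto _).comp (ha (w i) (z i))
    obtain ⟨s, hs1, hs2⟩ := ((ht.eventually (Metric.ball_mem_nhds _ hε)).and
      (eventually_subset (Finset.univ.image e))).exists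
    refine ⟨_, ⟨s, fun k => compat_part hab (hs2 (Finset.mem_image_of_mem e (Finset.mem_univ k)))
      (he.1 k), rfl⟩, ?_⟩
    have key : ∀ f : Fin m → H, RCLike.re ⟪z, (WithLp.toLp 2 f : PiLp 2 fun _ : Fin m => H)⟫_ℂ =
        ∑ i, (⟪f i, z i⟫_ℂ).re := fun f => by
      rw [PiLp.inner_apply, RCLike.re_to_complex, Complex.re_sum]
      exact Finset.sum_congr rfl fun i _ => by rw [← inner_conj_symm (f i) (z i), Complex.conj_re]
    rw [key, key, ← Real.dist_eq]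
    exact hs1
  obtain ⟨ι, hι, lam, c, hlam, hlam1, hcC, hdist⟩ := mem_closure_hull hu hη
  choose s hs hcs using hcC
  set W : ι → (H →L[ℂ] H) := fun j => pinch (part hab (s j)) x
  set Wbar : H →L[ℂ] H := ∑ j, lam j • W j
  have hWn : ∀ j, ‖W j‖ ≤ ‖x‖ := fun j => (isPart_part hab (s j)).norm_pinch_le x
  have hWbn : ‖Wbar‖ ≤ ‖x‖ := by
    refine (norm_sum_le _ _).trans ((Finset.sum_le_sum fun j _ => ?_).trans_eq
      (show ∑ j, lam j * ‖x‖ = ‖x‖ by rw [← Finset.sum_mul, hlam1, one_mul]))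
    rw [norm_smul, Real.norm_of_nonneg (hlam j)]
    exact mul_le_mul_of_nonneg_left (hWn j) (hlam j)
  have hWc : ∀ j k, e k * W j = W j * e k := fun j k =>
    pinch_commute hab (isPart_part hab (s j)) x (he.1 k) (hs j k)
  set v : Fin m → Fin K → ι → H := fun i k j => q' (e k ((W j - Wbar) (e k (w i))))
  have hv : ∀ i k, ∑ j, lam j • v i k j = 0 := by
    intro i k
    have : ∑ j, lam j • (W j - Wbar) (e k (w i)) = 0 := by
      simp only [sub_apply, smul_sub, Finset.sum_sub_distrib, ← Finset.sum_smul, hlam1, one_smul]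
      simp [Wbar, sum_apply]
    calc ∑ j, lam j • v i k j = q' (e k (∑ j, lam j • (W j - Wbar) (e k (w i)))) := by
          simp only [v, map_sum, ContinuousLinearMap.map_smul_of_tower]
      _ = 0 := by rw [this, map_zero, map_zero]
  obtain ⟨ch, hch⟩ := exists_choice lam hlam hlam1 v hv
  obtain ⟨N, g, hg, hge, hgp⟩ := exists_glue hab he (fun k => part hab (s (ch k)))
    fun k => isPart_part hab _
  refine ⟨N, g, hg, fun n u => ?_, fun i => ?_⟩
  · obtain ⟨k, hk⟩ := hge n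
    conv_lhs => rw [← hk, mul_apply_eq_comp]
    exact hsmall k (g n u)
  have hsum : ∑ i, ∑ k, ∑ j, lam j * ‖v i k j‖ ^ 2 ≤ 4 * κ * ‖x‖ ^ 2 * ∑ i, ‖w i‖ ^ 2 := by
    rw [Finset.mul_sum]
    refine Finset.sum_le_sum fun i _ => ?_
    rw [← he.sum_norm_sq (w i), Finset.mul_sum]
    refine Finset.sum_le_sum fun k _ => ?_
    refine (Finset.sum_le_sum fun j _ => mul_le_mul_of_nonneg_left ?_ (hlam j)).trans_eq
      (show ∑ j, lam j * (4 * κ * ‖x‖ ^ 2 * ‖e k (w i)‖ ^ 2) = _ by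
        rw [← Finset.sum_mul, hlam1, one_mul])
    refine (hsmall k _).trans ?_
    rw [show 4 * κ * ‖x‖ ^ 2 * ‖e k (w i)‖ ^ 2 = κ * (2 * ‖x‖ * ‖e k (w i)‖) ^ 2 by ring]
    refine mul_le_mul_of_nonneg_left (pow_le_pow_left₀ (norm_nonneg _) ?_ 2) hκ
    refine (W j - Wbar).le_of_opNorm_le ?_ _
    exact (norm_sub_le _ _).trans (by linarith [hWn j])
  have hdec : pinch g x - Wbar = ∑ k, e k * (W (ch k) - Wbar) * e k := by
    have hb : ∑ k, e k * Wbar * e k = Wbar := by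
      have : ∀ k, e k * Wbar * e k = e k * Wbar := fun k => by
        simp only [Wbar, Finset.mul_sum, Finset.sum_mul, mul_smul_comm, smul_mul_assoc]
        refine Finset.sum_congr rfl fun j _ => ?_
        rw [mul_assoc, ← hWc, ← mul_assoc, (he.1 k).2.isIdempotentElem.eq]
      simp only [this, ← Finset.sum_mul, he.2.2, one_mul]
    simp only [mul_sub, sub_mul, Finset.sum_sub_distrib, hb, hgp, W]
  have h1 : ‖q' ((pinch g x - Wbar) (w i))‖ ≤
      Real.sqrt (4 * κ * ‖x‖ ^ 2 * ∑ i, ‖w i‖ ^ 2) := by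
    refine Real.le_sqrt_of_sq_le (le_trans ?_ (hch.trans hsum))
    rw [hdec, sum_apply, map_sum]
    exact Finset.single_le_sum (f := fun i => ‖∑ k, v i k (ch k)‖ ^ 2) (fun i _ => sq_nonneg _)
      (Finset.mem_univ i)
  have h2 : ‖q' ((Wbar - a) (w i))‖ ≤ η := by
    refine (norm_proj_apply_le hq' _).trans (le_trans ?_ hdist.le)
    refine le_of_eq_of_le ?_ (PiLp.norm_apply_le (∑ j, lam j • c j - u) i)
    congr 1
    simp [Wbar, W, u, hcs, sum_apply, WithLp.ofLp_sum]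
  calc ‖q' ((pinch g x - a) (w i))‖
      = ‖q' ((pinch g x - Wbar) (w i)) + q' ((Wbar - a) (w i))‖ := by
        rw [← map_add, sub_apply, sub_apply, sub_apply]; congr 2; abel
    _ ≤ _ := (norm_add_le _ _).trans (add_le_add h1 h2)

end Vale.Agent.P078.Singular
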